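import Mathlib
import Vale.Agent.P080.Defs

/-!
# Calculus tools for the de Giorgi continuity lemma: truncations, cutoffs, Caccioppoli, Sobolev
-/

namespace Vale.Agent.P080.DG

open scoped Topology RealInnerProductSpace ENNReal NNReal Gradient
open Set Filter MeasureTheory Metric Asymptotics

/-- positive part to the power `n` -/
def pp (n : ℕ) (t : ℝ) : ℝ := max t 0 ^ n

lemma pp_nonneg (n : ℕ) (t : ℝ) : 0 ≤ pp n t := pow_nonneg (le_max_right _ _) n

lemma continuous_pp (n : ℕ) : Continuous (pp n) :=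
  (continuous_id.max continuous_const).pow n

lemma hasDerivAt_pp (n : ℕ) (t : ℝ) : HasDerivAt (pp (n + 2)) ((n + 2) * pp (n + 1) t) t := by
  rcases lt_trichotomy t 0 with ht | rfl | ht
  · have : pp (n + 2) =ᶠ[𝓝 t] fun _ => 0 := by
      filter_upwards [gt_mem_nhds ht] with s hs
      simp [pp, max_eq_right hs.le]
    simpa [pp, max_eq_right ht.le] using (hasDerivAt_const t (0:ℝ)).congr_of_eventuallyEq this
  · have hz : pp (n + 1) 0 = 0 := by simp [pp]
    rw [hz, mul_zero]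
    rw [hasDerivAt_iff_isLittleO]
    simp only [sub_zero, smul_zero, pp, max_self, ne_eq, Nat.add_eq_zero_iff, OfNat.ofNat_ne_zero,
      and_false, not_false_eq_true, zero_pow, sub_zero]
    refine IsBigO.trans_isLittleO (g := fun s : ℝ => s ^ (n + 2)) ?_ ?_
    · refine IsBigO.of_bound 1 (Eventually.of_forall fun s => ?_)
      rw [one_mul, norm_pow, norm_pow, Real.norm_eq_abs, Real.norm_eq_abs]
      exact pow_le_pow_left₀ (abs_nonneg _) (by
        rw [abs_of_nonneg (le_max_right _ _)]; exact max_le (le_abs_self _) (abs_nonneg _)) _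
    · simpa using isLittleO_pow_pow (𝕜 := ℝ) (show 1 < n + 2 by omega)
  · have : pp (n + 2) =ᶠ[𝓝 t] fun s => s ^ (n + 2) := by
      filter_upwards [lt_mem_nhds ht] with s hs
      simp [pp, max_eq_left hs.le]
    simpa [pp, max_eq_left ht.le] using (hasDerivAt_pow (n + 2) t).congr_of_eventuallyEq this

/-- smooth step: `0` on `(-∞,0]`, `1` on `[1,∞)` -/
noncomputable def step (t : ℝ) : ℝ := 2 * pp 2 t - 4 * pp 2 (t - 1/2) + 2 * pp 2 (t - 1)

/-- its derivative -/
noncomputable def step' (t : ℝ) : ℝ := 4 * pp 1 t - 8 * pp 1 (t - 1/2) + 4 * pp 1 (t - 1)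

lemma hasDerivAt_step (t : ℝ) : HasDerivAt step (step' t) t := by
  have h := fun c : ℝ => (hasDerivAt_pp 0 (t - c)).comp t ((hasDerivAt_id t).sub_const c)
  have h0 := hasDerivAt_pp 0 t
  refine (((h0.const_mul 2).sub ((h (1/2)).const_mul 4)).add ((h 1).const_mul 2)).congr_deriv ?_
  simp only [step', Nat.zero_add, Nat.cast_zero]; ring

lemma continuous_step' : Continuous step' := by
  have := continuous_pp 1
  unfold step'
  fun_prop

lemma step_bounds (t : ℝ) :
    0 ≤ step t ∧ step t ≤ 1 ∧ |step' t| ≤ 2 ∧ (t ≤ 0 → step t = 0) ∧ (1 ≤ t → step t = 1) := by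
  simp only [step, step', pp, pow_one]
  rcases le_total t 0 with h0 | h0
  · rw [max_eq_right h0, max_eq_right (by linarith), max_eq_right (by linarith)]
    norm_num
    linarith
  rcases le_total t (1/2) with h1 | h1
  · rw [max_eq_left h0, max_eq_right (by linarith), max_eq_right (by linarith)]
    refine ⟨by nlinarith, by nlinarith, abs_le.2 ⟨by linarith, by linarith⟩, ?_, ?_⟩ <;> intro h
    · obtain rfl : t = 0 := le_antisymm h h0; norm_num
    · linarith
  rcases le_total t 1 with h2 | h2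
  · rw [max_eq_left h0, max_eq_left (by linarith), max_eq_right (by linarith)]
    refine ⟨by nlinarith, by nlinarith, abs_le.2 ⟨by linarith, by linarith⟩, ?_, ?_⟩ <;> intro h
    · linarith
    · obtain rfl : t = 1 := le_antisymm h2 h; norm_num
  · rw [max_eq_left h0, max_eq_left (by linarith), max_eq_left (by linarith)]
    refine ⟨by nlinarith, by nlinarith, abs_le.2 ⟨by linarith, by linarith⟩, ?_, ?_⟩ <;> intro h
    · linarith
    · ring

/-! ### gradients -/

section Grad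

variable {F : Type*} [NormedAddCommGroup F] [InnerProductSpace ℝ F] [CompleteSpace F]

lemma hasFDerivAt_grad {f : F → ℝ} (hf : ContDiff ℝ 1 f) (x : F) :
    HasFDerivAt f (InnerProductSpace.toDual ℝ F (∇ f x)) x :=
  hasGradientAt_iff_hasFDerivAt.1 (hf.differentiable one_ne_zero x).hasGradientAt

lemma continuous_grad {f : F → ℝ} (hf : ContDiff ℝ 1 f) : Continuous (∇ f) :=
  (InnerProductSpace.toDual ℝ F).symm.continuous.comp (hf.continuous_fderiv one_ne_zero)

lemma norm_grad (f : F → ℝ) (x : F) : ‖∇ f x‖ = ‖fderiv ℝ f x‖ :=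
  (InnerProductSpace.toDual ℝ F).symm.norm_map _

lemma hasGradientAt_comp {f : F → ℝ} (hf : ContDiff ℝ 1 f) {g : ℝ → ℝ} {g' : ℝ} (x : F)
    (hg : HasDerivAt g g' (f x)) : HasGradientAt (fun y => g (f y)) (g' • ∇ f x) x := by
  rw [hasGradientAt_iff_hasFDerivAt, map_smul]
  exact hg.comp_hasFDerivAt x (hasFDerivAt_grad hf x)

lemma hasGradientAt_mul {f g : F → ℝ} {a b x : F} (hf : HasGradientAt f a x)
    (hg : HasGradientAt g b x) :
    HasGradientAt (fun y => f y * g y) (f x • b + g x • a) x := by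
  rw [hasGradientAt_iff_hasFDerivAt, map_add, map_smul, map_smul]
  exact (hasGradientAt_iff_hasFDerivAt.1 hf).mul (hasGradientAt_iff_hasFDerivAt.1 hg)

lemma contDiff_one_comp {f : F → ℝ} (hf : ContDiff ℝ 1 f) {g g' : ℝ → ℝ}
    (hg : ∀ t, HasDerivAt g (g' t) t) (hg' : Continuous g') : ContDiff ℝ 1 fun y => g (f y) := by
  refine ContDiff.comp ?_ hf
  rw [contDiff_one_iff_deriv]
  exact ⟨fun t => (hg t).differentiableAt, by rwa [show deriv g = g' from funext fun t => (hg t).deriv]⟩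

end Grad

abbrev E3 := E 3

/-- cutoff equal to `1` on the ball of radius `ρ`, vanishing outside the ball of radius `R` -/
noncomputable def cut (x0 : E3) (ρ R : ℝ) (x : E3) : ℝ :=
  step ((R ^ 2 - ‖x - x0‖ ^ 2) / (R ^ 2 - ρ ^ 2))

section Cut

variable {x0 : E3} {ρ R : ℝ}

lemma contDiff_cut : ContDiff ℝ 1 (cut x0 ρ R) :=
  contDiff_one_comp ((contDiff_const.sub ((contDiff_id.sub contDiff_const).norm_sq ℝ)).div_const _)
    hasDerivAt_step continuous_step'

lemma cut_nonneg (x : E3) : 0 ≤ cut x0 ρ R x := (step_bounds _).1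

lemma cut_le_one (x : E3) : cut x0 ρ R x ≤ 1 := (step_bounds _).2.1

lemma abs_cut_le_one (x : E3) : |cut x0 ρ R x| ≤ 1 :=
  abs_le.2 ⟨by linarith [cut_nonneg (x0 := x0) (ρ := ρ) (R := R) x], cut_le_one x⟩

lemma cut_eq_one (h0 : 0 ≤ ρ) (h : ρ < R) {x : E3} (hx : x ∈ closedBall x0 ρ) :
    cut x0 ρ R x = 1 := by
  refine (step_bounds _).2.2.2.2 ?_
  have : 0 < R ^ 2 - ρ ^ 2 := by nlinarith
  rw [one_le_div this]
  rw [mem_closedBall, dist_eq_norm] at hx
  nlinarith [norm_nonneg (x - x0)]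

lemma cut_eq_zero (h0 : 0 ≤ ρ) (h : ρ < R) {x : E3} (hx : x ∉ closedBall x0 R) :
    cut x0 ρ R x = 0 := by
  refine (step_bounds _).2.2.2.1 (div_nonpos_of_nonpos_of_nonneg ?_ ?_)
  · rw [mem_closedBall, dist_eq_norm, not_le] at hx
    nlinarith [norm_nonneg (x - x0)]
  · nlinarith

lemma tsupport_cut (h0 : 0 ≤ ρ) (h : ρ < R) : tsupport (cut x0 ρ R) ⊆ closedBall x0 R :=
  closure_minimal (fun x hx => by_contra fun hn => hx (cut_eq_zero h0 h hn)) isClosed_closedBall

lemma hasCompactSupport_cut (h0 : 0 ≤ ρ) (h : ρ < R) : HasCompactSupport (cut x0 ρ R) :=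
  (isCompact_closedBall x0 R).of_isClosed_subset (isClosed_tsupport _) (tsupport_cut h0 h)

lemma norm_grad_cut (h0 : 0 ≤ ρ) (h : ρ < R) (x : E3) :
    ‖∇ (cut x0 ρ R) x‖ ≤ 4 * R / (R ^ 2 - ρ ^ 2) := by
  have hd : 0 < R ^ 2 - ρ ^ 2 := by nlinarith
  by_cases hx : x ∈ closedBall x0 R
  · have h1 : HasFDerivAt (fun y => (R ^ 2 - ‖y - x0‖ ^ 2) / (R ^ 2 - ρ ^ 2))
        ((R ^ 2 - ρ ^ 2)⁻¹ • -((2:ℝ) • innerSL ℝ (x - x0))) x := by
      simp only [div_eq_inv_mul]
      exact (((hasFDerivAt_normSq x0 x).const_sub (R ^ 2)).const_mul _)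
    have h2 := (hasDerivAt_step _).comp_hasFDerivAt x h1
    rw [norm_grad, show fderiv ℝ (cut x0 ρ R) x = _ from h2.fderiv]
    rw [norm_smul, norm_smul, norm_neg, norm_smul, innerSL_apply_norm, Real.norm_eq_abs,
      Real.norm_eq_abs, Real.norm_eq_abs, abs_of_pos (inv_pos.2 hd), abs_of_pos (two_pos : (0:ℝ) < 2)]
    rw [mem_closedBall, dist_eq_norm] at hx
    have h3 := (step_bounds ((R ^ 2 - ‖x - x0‖ ^ 2) / (R ^ 2 - ρ ^ 2))).2.2.1
    have hi : 0 < (R ^ 2 - ρ ^ 2)⁻¹ := inv_pos.2 hd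
    calc _ ≤ 2 * ((R ^ 2 - ρ ^ 2)⁻¹ * (2 * R)) := by
          gcongr
      _ = 4 * R / (R ^ 2 - ρ ^ 2) := by rw [div_eq_mul_inv]; ring
  · have : cut x0 ρ R =ᶠ[𝓝 x] fun _ => 0 := by
      filter_upwards [isClosed_closedBall.isOpen_compl.mem_nhds hx] with y hy
      exact cut_eq_zero h0 h hy
    rw [norm_grad, this.fderiv_eq]
    simp
    have : 0 < R := by linarith
    positivity

end Cut

/-! ### Caccioppoli -/

/-- approximate weak equation `div (A ∇v) = 0` on `B` -/
def Weak (A : E3 → E3 →L[ℝ] E3) (v : E3 → ℝ) (η : ℝ) (B : Set E3) : Prop :=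
  ∀ φ : E3 → ℝ, ContDiff ℝ 1 φ → HasCompactSupport φ → tsupport φ ⊆ B →
    |∫ x, ⟪A x (∇ v x), ∇ φ x⟫| ≤ η * Real.sqrt (∫ x, ‖∇ φ x‖ ^ 2)

lemma integral_le_of_support {f g : E3 → ℝ} (hf : Continuous f) (hcf : HasCompactSupport f)
    {B : Set E3} (hBm : IsCompact B) (hsupp : ∀ x, x ∉ B → f x = 0) (hg : Continuous g)
    (hle : ∀ x ∈ B, f x ≤ g x) : ∫ x, f x ≤ ∫ x in B, g x := by
  rw [← setIntegral_eq_integral_of_forall_compl_eq_zero hsupp]
  exact setIntegral_mono_on (hf.continuousOn.integrableOn_compact hBm)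
    (hg.continuousOn.integrableOn_compact hBm) hBm.measurableSet hle

theorem caccioppoli {A : E3 → E3 →L[ℝ] E3} {v ζ : E3 → ℝ} {g g' : ℝ → ℝ} {q : E3 → ℝ}
    {m M η L G G' Z En : ℝ} {B : Set E3} (hm : 0 < m) (hη : 0 ≤ η)
    (hA : Continuous A) (hlo : ∀ x ξ, m * ‖ξ‖ ^ 2 ≤ ⟪A x ξ, ξ⟫) (hup : ∀ x ξ, ‖A x ξ‖ ≤ M * ‖ξ‖)
    (hv : ContDiff ℝ 1 v) (hB : IsCompact B) (hen : ∫ x in B, ‖∇ v x‖ ^ 2 ≤ En)
    (hweak : Weak A v η B) (hζ : ContDiff ℝ 1 ζ) (hζs : tsupport ζ ⊆ B) (hζ1 : ∀ x, |ζ x| ≤ 1)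
    (hg : ∀ t, HasDerivAt g (g' t) t) (hg' : Continuous g') (hL : ∀ x, |v x| ≤ L)
    (hG : ∀ t, |t| ≤ L → |g t| ≤ G ∧ |g' t| ≤ G') (hZ : ∀ x, ‖∇ ζ x‖ ≤ Z)
    (hq : Continuous q) (hq0 : ∀ x, 0 ≤ q x)
    (hgq : ∀ x ∈ tsupport ζ, 0 ≤ g' (v x) ∧ g (v x) ^ 2 ≤ g' (v x) * q x) :
    ∫ x, ζ x ^ 2 * g' (v x) * ‖∇ v x‖ ^ 2 ≤
      2 * η / m * Real.sqrt (2 * G' ^ 2 * En + 8 * G ^ 2 * Z ^ 2 * volume.real B) +
      4 * M ^ 2 / m ^ 2 * ∫ x, q x * ‖∇ ζ x‖ ^ 2 := by
  have hζc : HasCompactSupport ζ := hB.of_isClosed_subset (isClosed_tsupport _) hζs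
  have hgc : Continuous g := continuous_iff_continuousAt.2 fun t => (hg t).continuousAt
  have hgv := contDiff_one_comp hv hg hg'
  set φ : E3 → ℝ := fun x => ζ x * ζ x * g (v x) with hφ
  have hφd : ContDiff ℝ 1 φ := (hζ.mul hζ).mul hgv
  have hφc : HasCompactSupport φ := hζc.mul_right.mul_right
  have hφs : tsupport φ ⊆ B :=
    (closure_mono fun x hx => by simp [hφ] at hx ⊢; tauto).trans hζs
  have hgr : ∀ x, ∇ φ x = (ζ x ^ 2 * g' (v x)) • ∇ v x + (2 * ζ x * g (v x)) • ∇ ζ x := by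
    intro x
    have h1 := (hζ.differentiable one_ne_zero x).hasGradientAt
    rw [(hasGradientAt_mul (hasGradientAt_mul h1 h1) (hasGradientAt_comp hv x (hg (v x)))).gradient,
      smul_smul]
    module
  have hcv := continuous_grad hv
  have hcζ := continuous_grad hζ
  have hoff : ∀ x, x ∉ tsupport ζ → ζ x = 0 ∧ ∇ ζ x = 0 := by
    intro x hx
    refine ⟨image_eq_zero_of_notMem_tsupport hx, norm_eq_zero.1 ?_⟩
    rw [norm_grad, fderiv_of_notMem_tsupport ℝ hx, norm_zero]
  have hM : 0 ≤ M := by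
    have h1 := hup 0 (EuclideanSpace.single 0 1)
    rw [EuclideanSpace.norm_single, norm_one, mul_one] at h1
    exact (norm_nonneg _).trans h1
  -- the test function
  have hgrad_bd : ∫ x, ‖∇ φ x‖ ^ 2 ≤ 2 * G' ^ 2 * En + 8 * G ^ 2 * Z ^ 2 * volume.real B := by
    have hc := continuous_grad hφd
    calc ∫ x, ‖∇ φ x‖ ^ 2
        ≤ ∫ x in B, (2 * G' ^ 2 * ‖∇ v x‖ ^ 2 + 8 * G ^ 2 * Z ^ 2) := by
          refine integral_le_of_support (hc.norm.pow 2) ?_ hB (fun x hx => ?_) (by fun_prop) ?_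
          · refine hφc.mono' ?_
            intro x hx
            by_contra hn
            simp [norm_grad, fderiv_of_notMem_tsupport ℝ hn] at hx
          · simp [norm_grad, fderiv_of_notMem_tsupport ℝ fun h => hx (hφs h)]
          · intro x _
            obtain ⟨h1, h2⟩ := hG (v x) (hL x)
            have h3 := hζ1 x
            have h4 := hZ x
            have hζ2 : ζ x ^ 2 ≤ 1 := by
              rw [← sq_abs]; exact pow_le_one₀ (abs_nonneg _) h3
            have a1 : ‖(ζ x ^ 2 * g' (v x)) • ∇ v x‖ ≤ G' * ‖∇ v x‖ := by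
              rw [norm_smul, Real.norm_eq_abs, abs_mul, abs_of_nonneg (sq_nonneg _)]
              gcongr
              calc ζ x ^ 2 * |g' (v x)| ≤ 1 * |g' (v x)| := by gcongr
                _ ≤ G' := by rw [one_mul]; exact h2
            have a2 : ‖(2 * ζ x * g (v x)) • ∇ ζ x‖ ≤ 2 * G * Z := by
              rw [norm_smul, Real.norm_eq_abs, abs_mul, abs_mul, abs_two]
              have : 0 ≤ G := (abs_nonneg _).trans h1
              calc 2 * |ζ x| * |g (v x)| * ‖∇ ζ x‖ ≤ 2 * 1 * G * Z := by gcongr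
                _ = _ := by ring
            simp only [Pi.pow_apply, hgr]
            calc _ ≤ (G' * ‖∇ v x‖ + 2 * G * Z) ^ 2 := by
                  gcongr
                  exact (norm_add_le _ _).trans (add_le_add a1 a2)
              _ ≤ _ := by nlinarith [sq_nonneg (G' * ‖∇ v x‖ - 2 * G * Z)]
      _ ≤ _ := by
          rw [integral_add ((by fun_prop : Continuous fun x => 2 * G' ^ 2 * ‖∇ v x‖ ^ 2).continuousOn.integrableOn_compact hB)
            (continuousOn_const.integrableOn_compact hB), integral_const_mul, setIntegral_const]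
          rw [smul_eq_mul]
          nlinarith [sq_nonneg G']
  have hw : |∫ x, ⟪A x (∇ v x), ∇ φ x⟫| ≤
      η * Real.sqrt (2 * G' ^ 2 * En + 8 * G ^ 2 * Z ^ 2 * volume.real B) :=
    (hweak φ hφd hφc hφs).trans (by gcongr)
  -- pointwise bound
  have hpt : ∀ x, m / 2 * (ζ x ^ 2 * g' (v x) * ‖∇ v x‖ ^ 2) ≤
      ⟪A x (∇ v x), ∇ φ x⟫ + 2 * M ^ 2 / m * (q x * ‖∇ ζ x‖ ^ 2) := by
    intro x
    by_cases hx : x ∈ tsupport ζ
    swap
    · obtain ⟨a, b⟩ := hoff x hx
      simp [hgr, a, b]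
    obtain ⟨h1, h2⟩ := hgq x hx
    rw [hgr, inner_add_right, real_inner_smul_right, real_inner_smul_right]
    have t1 : m * (ζ x ^ 2 * g' (v x) * ‖∇ v x‖ ^ 2) ≤
        ζ x ^ 2 * g' (v x) * ⟪A x (∇ v x), ∇ v x⟫ :=
      calc _ = ζ x ^ 2 * g' (v x) * (m * ‖∇ v x‖ ^ 2) := by ring
        _ ≤ _ := by gcongr; exact hlo _ _
    have t2 : |2 * ζ x * g (v x) * ⟪A x (∇ v x), ∇ ζ x⟫| ≤
        2 * M * (|ζ x| * ‖∇ v x‖) * ‖∇ ζ x‖ * |g (v x)| := by
      rw [abs_mul, abs_mul, abs_mul, abs_two]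
      calc 2 * |ζ x| * |g (v x)| * |⟪A x (∇ v x), ∇ ζ x⟫|
          ≤ 2 * |ζ x| * |g (v x)| * (M * ‖∇ v x‖ * ‖∇ ζ x‖) := by
            gcongr
            exact (abs_real_inner_le_norm _ _).trans (by gcongr; exact hup _ _)
        _ = _ := by ring
    have t3 : |g (v x)| ≤ Real.sqrt (g' (v x)) * Real.sqrt (q x) := by
      rw [← Real.sqrt_mul h1, ← Real.sqrt_sq_eq_abs]
      exact Real.sqrt_le_sqrt h2
    have t4 : 2 * M * (|ζ x| * ‖∇ v x‖) * ‖∇ ζ x‖ * |g (v x)| ≤
        m / 2 * (ζ x ^ 2 * g' (v x) * ‖∇ v x‖ ^ 2) + 2 * M ^ 2 / m * (q x * ‖∇ ζ x‖ ^ 2) := by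
      set a := |ζ x| * ‖∇ v x‖ * Real.sqrt (g' (v x))
      set b := ‖∇ ζ x‖ * Real.sqrt (q x)
      calc _ ≤ 2 * M * (|ζ x| * ‖∇ v x‖) * ‖∇ ζ x‖ * (Real.sqrt (g' (v x)) * Real.sqrt (q x)) := by
            gcongr
        _ = 2 * M * (a * b) := by simp only [a, b]; ring
        _ ≤ m / 2 * a ^ 2 + 2 * M ^ 2 / m * b ^ 2 := by
            have : m / 2 * a ^ 2 + 2 * M ^ 2 / m * b ^ 2 - 2 * M * (a * b) =
                (m * a - 2 * M * b) ^ 2 / (2 * m) := by field_simp; ring
            nlinarith [show 0 ≤ (m * a - 2 * M * b) ^ 2 / (2 * m) by positivity]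
        _ = _ := by
            simp only [a, b, mul_pow, sq_abs, Real.sq_sqrt h1, Real.sq_sqrt (hq0 x)]
            ring
    linarith [neg_abs_le (2 * ζ x * g (v x) * ⟪A x (∇ v x), ∇ ζ x⟫)]
  have hintL : Integrable fun x => m / 2 * (ζ x ^ 2 * g' (v x) * ‖∇ v x‖ ^ 2) := by
    refine Continuous.integrable_of_hasCompactSupport (by have := hζ.continuous; have := hv.continuous; fun_prop) ?_
    refine hζc.mono fun x hx => ?_
    simp at hx ⊢; tauto
  have hintA : Integrable fun x => ⟪A x (∇ v x), ∇ φ x⟫ := by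
    refine Continuous.integrable_of_hasCompactSupport (by have := continuous_grad hφd; fun_prop) ?_
    refine hφc.mono' fun x hx => ?_
    by_contra hn
    have : ∇ φ x = 0 := norm_eq_zero.1 (by rw [norm_grad, fderiv_of_notMem_tsupport ℝ hn, norm_zero])
    exact hx (by show ⟪A x (∇ v x), ∇ φ x⟫ = 0; rw [this, inner_zero_right])
  have hintQ : Integrable fun x => 2 * M ^ 2 / m * (q x * ‖∇ ζ x‖ ^ 2) := by
    refine Continuous.integrable_of_hasCompactSupport (by fun_prop) ?_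
    refine hζc.mono' fun x hx => ?_
    by_contra hn
    simp [(hoff x hn).2] at hx
  have key := integral_mono hintL (hintA.add hintQ) hpt
  simp only [Pi.add_apply, integral_add hintA hintQ, integral_const_mul] at key
  have h5 := (le_abs_self _).trans hw
  have h7 : m / 2 * ∫ x, ζ x ^ 2 * g' (v x) * ‖∇ v x‖ ^ 2 ≤
      η * Real.sqrt (2 * G' ^ 2 * En + 8 * G ^ 2 * Z ^ 2 * volume.real B) +
      2 * M ^ 2 / m * ∫ x, q x * ‖∇ ζ x‖ ^ 2 := by linarith
  rw [show 2 * η / m * Real.sqrt (2 * G' ^ 2 * En + 8 * G ^ 2 * Z ^ 2 * volume.real B) +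
      4 * M ^ 2 / m ^ 2 * ∫ x, q x * ‖∇ ζ x‖ ^ 2 =
      (η * Real.sqrt (2 * G' ^ 2 * En + 8 * G ^ 2 * Z ^ 2 * volume.real B) +
      2 * M ^ 2 / m * ∫ x, q x * ‖∇ ζ x‖ ^ 2) / (m / 2) by field_simp; ring]
  rw [le_div_iff₀ (by positivity)]
  linarith

/-! ### Sobolev on a small set -/

theorem sobolev_on_small_set : ∃ C : ℝ, 0 ≤ C ∧ ∀ (f : E3 → ℝ), ContDiff ℝ 1 f → HasCompactSupport f →
    ∀ (S : Set E3) (σ a b : ℝ), 0 ≤ σ → volume S ≤ ENNReal.ofReal (σ ^ 3) →
    ∫ x, f x ^ 2 ≤ a ^ 2 → ∫ x, ‖∇ f x‖ ^ 2 ≤ b ^ 2 → 0 ≤ a → 0 ≤ b →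
    ∫ x in S, f x ^ 2 ≤ C * a * b * σ := by
  set K := eLpNormLESNormFDerivOneConst (volume : Measure E3) (3/2 : ℝ≥0)
  refine ⟨2 * K, by positivity, fun f hf hfc S σ a b hσ hS ha hb ha0 hb0 => ?_⟩
  set F : E3 → ℝ := fun x => f x ^ 2
  have hF : ContDiff ℝ 1 F := hf.pow 2
  have hFc : HasCompactSupport F := hfc.mono fun x hx => by simp [F] at hx; exact hx
  have hrank : Module.finrank ℝ E3 = 3 := by simp [E3]
  have hgns := eLpNorm_le_eLpNorm_fderiv_one (volume : Measure E3) hF hFc (p := 3/2) (by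
    rw [hrank]
    constructor <;> norm_num)
  -- Hoelder on `S`
  have hH : eLpNorm F 1 (volume.restrict S) ≤
      eLpNorm F (3/2 : ℝ≥0) volume * ENNReal.ofReal σ := by
    refine (eLpNorm_le_eLpNorm_mul_rpow_measure_univ (p := 1) (q := ((3/2 : ℝ≥0) : ℝ≥0∞)) ?_
      hF.continuous.aestronglyMeasurable).trans ?_
    · exact_mod_cast (show (1:ℝ≥0) ≤ 3/2 by rw [le_div_iff₀ (by norm_num)]; norm_num)
    gcongr
    · exact Measure.restrict_le_self
    · rw [Measure.restrict_apply_univ]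
      refine (ENNReal.rpow_le_rpow hS (by norm_num)).trans (le_of_eq ?_)
      rw [ENNReal.ofReal_rpow_of_nonneg (by positivity) (by norm_num)]
      congr 1
      rw [← Real.rpow_natCast σ 3, ← Real.rpow_mul hσ]
      norm_num
  have hF1 : eLpNorm F 1 (volume.restrict S) = ENNReal.ofReal (∫ x in S, F x) := by
    rw [eLpNorm_one_eq_lintegral_enorm, ofReal_integral_eq_lintegral_ofReal
      ((hF.continuous.integrable_of_hasCompactSupport hFc).restrict) (ae_of_all _ fun x => sq_nonneg _)]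
    refine lintegral_congr fun x => ?_
    rw [Real.enorm_eq_ofReal (sq_nonneg _)]
  have hcg := continuous_grad hf
  have hfd : eLpNorm (fderiv ℝ F) 1 volume ≤ ENNReal.ofReal (2 * a * b) := by
    have hint : Integrable fun x => 2 * |f x| * ‖∇ f x‖ := by
      refine Continuous.integrable_of_hasCompactSupport (by have := hf.continuous; fun_prop) ?_
      exact hfc.mono fun x hx => by simp at hx ⊢; tauto
    calc eLpNorm (fderiv ℝ F) 1 volume = ∫⁻ x, ENNReal.ofReal (2 * |f x| * ‖∇ f x‖) := by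
          rw [eLpNorm_one_eq_lintegral_enorm]
          refine lintegral_congr fun x => ?_
          rw [← ofReal_norm_eq_enorm, norm_grad]
          congr 1
          rw [show F = fun x => f x ^ 2 from rfl,
            ((hf.differentiable one_ne_zero x).hasFDerivAt.pow 2).fderiv]
          simp [norm_smul]
      _ = ENNReal.ofReal (∫ x, 2 * |f x| * ‖∇ f x‖) :=
          (ofReal_integral_eq_lintegral_ofReal hint (ae_of_all _ fun x => by positivity)).symm
      _ ≤ _ := by
          apply ENNReal.ofReal_le_ofReal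
          have i1 : Integrable fun x => f x ^ 2 := hF.continuous.integrable_of_hasCompactSupport hFc
          have i2 : Integrable fun x => ‖∇ f x‖ ^ 2 := by
            refine Continuous.integrable_of_hasCompactSupport (by fun_prop) ?_
            refine hfc.mono' fun x hx => ?_
            by_contra hn
            simp [norm_grad, fderiv_of_notMem_tsupport ℝ hn] at hx
          rcases eq_or_lt_of_le ha0 with rfl | ha'
          · have hz : (fun x => f x ^ 2) =ᵐ[volume] 0 :=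
              (integral_eq_zero_iff_of_nonneg (fun x => sq_nonneg _) i1).1
                (le_antisymm (by simpa using ha) (integral_nonneg fun x => sq_nonneg _))
            refine le_of_eq ?_
            rw [mul_zero, zero_mul]
            exact integral_eq_zero_of_ae (hz.mono fun x hx => by simp at hx; simp [hx])
          rcases eq_or_lt_of_le hb0 with rfl | hb'
          · have hz : (fun x => ‖∇ f x‖ ^ 2) =ᵐ[volume] 0 :=
              (integral_eq_zero_iff_of_nonneg (fun x => sq_nonneg _) i2).1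
                (le_antisymm (by simpa using hb) (integral_nonneg fun x => sq_nonneg _))
            refine le_of_eq ?_
            rw [mul_zero]
            exact integral_eq_zero_of_ae (hz.mono fun x hx => by simp at hx; simp [hx])
          calc ∫ x, 2 * |f x| * ‖∇ f x‖ ≤ ∫ x, ((b / a) * f x ^ 2 + (a / b) * ‖∇ f x‖ ^ 2) := by
                refine integral_mono hint ((i1.const_mul _).add (i2.const_mul _)) fun x => ?_
                simp only [Pi.add_apply]
                have : (b / a) * f x ^ 2 + (a / b) * ‖∇ f x‖ ^ 2 - 2 * |f x| * ‖∇ f x‖ =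
                    (b * |f x| - a * ‖∇ f x‖) ^ 2 / (a * b) := by
                  rw [← sq_abs (f x)]; field_simp; ring
                nlinarith [show 0 ≤ (b * |f x| - a * ‖∇ f x‖) ^ 2 / (a * b) by positivity]
            _ ≤ (b / a) * a ^ 2 + (a / b) * b ^ 2 := by
                rw [integral_add (i1.const_mul _) (i2.const_mul _), integral_const_mul, integral_const_mul]
                gcongr
            _ = 2 * a * b := by field_simp; ring
  have h := (hH.trans (mul_le_mul' (hgns.trans (mul_le_mul' le_rfl hfd)) le_rfl))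
  rw [hF1, ← ENNReal.ofReal_coe_nnreal, ← ENNReal.ofReal_mul (by positivity),
    ← ENNReal.ofReal_mul (by positivity), ENNReal.ofReal_le_ofReal_iff (by positivity)] at h
  linarith [show (K:ℝ) * (2 * a * b) * σ = 2 * K * a * b * σ by ring]

end Vale.Agent.P080.DG
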