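import Vale.Agent.P080.Approx.Holder.Poincare

/-!
# Continuity of limits of approximate solutions of uniformly elliptic divergence-form equations

De Giorgi's argument in three variables: local boundedness from the Caccioppoli inequality and
the Sobolev inequality, decrease of the oscillation from the logarithmic test function and the
Poincare inequality.
-/

namespace Vale.Agent.P080.DG

open scoped Topology RealInnerProductSpace Gradient
open Set Filter MeasureTheory Metric

/-- `vn` is a bounded energy sequence of approximate solutions, converging a.e. to `v` on `B`,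
with one-sided bounds of `v` on balls passing to `vn` on slightly smaller balls. -/
structure IsData (v : E3 → ℝ) (vn : ℕ → E3 → ℝ) (A : ℕ → E3 → E3 →L[ℝ] E3) (η δ : ℕ → ℝ)
    (B : Set E3) (m M L En : ℝ) : Prop where
  m_pos : 0 < m
  compact : IsCompact B
  contDiff : ∀ n, ContDiff ℝ 1 (vn n)
  bdd : ∀ n x, |vn n x| ≤ L
  conv : ∀ᵐ x, x ∈ B → Tendsto (fun n => vn n x) atTop (𝓝 (v x))
  energy : ∀ n, ∫ x in B, ‖∇ (vn n) x‖ ^ 2 ≤ En
  contA : ∀ n, Continuous (A n)
  lo : ∀ n x ξ, m * ‖ξ‖ ^ 2 ≤ ⟪A n x ξ, ξ⟫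
  up : ∀ n x ξ, ‖A n x ξ‖ ≤ M * ‖ξ‖
  weak : ∀ n, Weak (A n) (vn n) (η n) B
  eta_nonneg : ∀ n, 0 ≤ η n
  eta_tendsto : Tendsto η atTop (𝓝 0)
  delta_tendsto : Tendsto δ atTop (𝓝 0)
  sup : ∀ x r b, closedBall x r ⊆ B → (∀ᵐ y, y ∈ closedBall x r → v y ≤ b) →
    ∀ n, ∀ y ∈ closedBall x (r - δ n), vn n y ≤ b
  inf : ∀ x r b, closedBall x r ⊆ B → (∀ᵐ y, y ∈ closedBall x r → b ≤ v y) →
    ∀ n, ∀ y ∈ closedBall x (r - δ n), b ≤ vn n y

lemma grad_neg (f : E3 → ℝ) (x : E3) : ∇ (fun y => -f y) x = -∇ f x := by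
  simp [gradient, fderiv_fun_neg]

lemma vol_closedBall (x : E3) {r : ℝ} (hr : 0 ≤ r) :
    volume.real (closedBall x r) = r ^ 3 * volume.real (closedBall (0 : E3) 1) := by
  rw [measureReal_def, Measure.addHaar_closedBall' volume x hr, measureReal_def, ENNReal.toReal_mul,
    ENNReal.toReal_ofReal (by positivity)]
  simp [E3]

lemma vol_pos {x : E3} {r : ℝ} (hr : 0 < r) : 0 < volume.real (closedBall x r) :=
  ENNReal.toReal_pos (measure_closedBall_pos volume x hr).ne' measure_closedBall_lt_top.ne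

namespace IsData

variable {v : E3 → ℝ} {vn : ℕ → E3 → ℝ} {A : ℕ → E3 → E3 →L[ℝ] E3} {η δ : ℕ → ℝ}
  {B : Set E3} {m M L En : ℝ}

lemma neg (D : IsData v vn A η δ B m M L En) :
    IsData (fun x => -v x) (fun n x => -vn n x) A η δ B m M L En where
  m_pos := D.m_pos
  compact := D.compact
  contDiff n := (D.contDiff n).neg
  bdd n x := by rw [abs_neg]; exact D.bdd n x
  conv := D.conv.mono fun x h hx => (h hx).neg
  energy n := by simpa [grad_neg] using D.energy n
  contA := D.contA
  lo := D.lo
  up := D.up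
  weak n φ h1 h2 h3 := by simpa [grad_neg, inner_neg_left, integral_neg] using D.weak n φ h1 h2 h3
  eta_nonneg := D.eta_nonneg
  eta_tendsto := D.eta_tendsto
  delta_tendsto := D.delta_tendsto
  sup x r b hb h n y hy := by
    have := D.inf x r (-b) hb (h.mono fun z hz hzm => by linarith [hz hzm]) n y hy
    linarith
  inf x r b hb h n y hy := by
    have := D.sup x r (-b) hb (h.mono fun z hz hzm => by linarith [hz hzm]) n y hy
    linarith

lemma ae_bdd (D : IsData v vn A η δ B m M L En) : ∀ᵐ x, x ∈ B → |v x| ≤ L :=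
  D.conv.mono fun x h hx => le_of_tendsto (h hx).abs (Eventually.of_forall fun n => D.bdd n x)

lemma tendsto_setIntegral (D : IsData v vn A η δ B m M L En) {S : Set E3} (hS : IsCompact S)
    (hSB : S ⊆ B) {φ : ℝ → ℝ} (hφ : Continuous φ) :
    IntegrableOn (fun x => φ (v x)) S ∧
      Tendsto (fun n => ∫ x in S, φ (vn n x)) atTop (𝓝 (∫ x in S, φ (v x))) := by
  obtain ⟨c, hc⟩ := (isCompact_Icc (a := -L) (b := L)).exists_bound_of_continuousOn hφ.continuousOn
  have hm : ∀ n, AEStronglyMeasurable (fun x => φ (vn n x)) (volume.restrict S) := fun n =>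
    (hφ.comp (D.contDiff n).continuous).aestronglyMeasurable
  have hconv : ∀ᵐ x ∂volume.restrict S, Tendsto (fun n => φ (vn n x)) atTop (𝓝 (φ (v x))) := by
    filter_upwards [ae_restrict_mem hS.measurableSet, ae_restrict_of_ae D.conv] with x hx h
    exact (hφ.tendsto _).comp (h (hSB hx))
  have hb : ∀ n, ∀ᵐ x ∂volume.restrict S, ‖φ (vn n x)‖ ≤ c := fun n =>
    ae_of_all _ fun x => hc _ (abs_le.1 (D.bdd n x))
  refine ⟨Integrable.mono' (integrableOn_const hS.measure_lt_top.ne (C := c))
    (aestronglyMeasurable_of_tendsto_ae _ hm hconv) ?_,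
    tendsto_integral_of_dominated_convergence (fun _ => c) hm
      (integrableOn_const hS.measure_lt_top.ne) hb hconv⟩
  filter_upwards [ae_restrict_mem hS.measurableSet, ae_restrict_of_ae D.ae_bdd] with x hx h
  exact hc _ (abs_le.1 (h (hSB hx)))

/-- a quantity going to zero with the error term of the Caccioppoli inequality -/
lemma tendsto_error (D : IsData v vn A η δ B m M L En) (c : ℝ) :
    Tendsto (fun n => 2 * η n / m * c) atTop (𝓝 0) := by
  simpa using ((D.eta_tendsto.const_mul 2).div_const m).mul_const c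

lemma grad_zero_outside {f : E3 → ℝ} {S : Set E3} (hS : tsupport f ⊆ S) {x : E3} (hx : x ∉ S) :
    ∇ f x = 0 :=
  norm_eq_zero.1 (by rw [norm_grad, fderiv_of_notMem_tsupport ℝ fun h => hx (hS h), norm_zero])

/-- one step of the iteration -/
lemma iteration_step (D : IsData v vn A η δ B m M L En) {C : ℝ} (hC : 0 ≤ C)
    (hsob : ∀ (f : E3 → ℝ), ContDiff ℝ 1 f → HasCompactSupport f →
      ∀ (S : Set E3) (σ a b : ℝ), 0 ≤ σ → volume S ≤ ENNReal.ofReal (σ ^ 3) →
      ∫ x, f x ^ 2 ≤ a ^ 2 → ∫ x, ‖∇ f x‖ ^ 2 ≤ b ^ 2 → 0 ≤ a → 0 ≤ b →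
      ∫ x in S, f x ^ 2 ≤ C * a * b * σ)
    {x0 : E3} {ρ R k k' E σ : ℝ} (hρ : 0 ≤ ρ) (hR : ρ < R) (hB : closedBall x0 R ⊆ B)
    (hk : k < k') (hE : 0 < E) (hσ : 0 ≤ σ) (hvol : 2 * E ≤ σ ^ 3 * (k' - k) ^ 4)
    (hU : ∫ x in closedBall x0 R, pp 4 (v x - k) ≤ E) :
    ∫ x in closedBall x0 ρ, pp 4 (v x - k') ≤
      C * Real.sqrt (2 * E) * (Real.sqrt ((8 * (M / m) ^ 2 + 8) * E) * (4 / (R - ρ))) * σ := by
  have hm := D.m_pos
  have hBR : IsCompact (closedBall x0 R) := isCompact_closedBall x0 R
  have hBρ : closedBall x0 ρ ⊆ closedBall x0 R := closedBall_subset_closedBall hR.le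
  have hpp : Continuous fun s : ℝ => pp 4 (s - k) := (continuous_pp 4).comp (continuous_sub_right k)
  have hpp' : Continuous fun s : ℝ => pp 4 (s - k') :=
    (continuous_pp 4).comp (continuous_sub_right k')
  obtain ⟨-, hlim⟩ := D.tendsto_setIntegral hBR hB hpp
  obtain ⟨-, hlim'⟩ := D.tendsto_setIntegral (isCompact_closedBall x0 ρ) (hBρ.trans hB) hpp'
  set Z := 4 / (R - ρ)
  have hRρ : 0 < R - ρ := sub_pos.2 hR
  have hZ : 0 < Z := by positivity
  set g : ℝ → ℝ := fun t => pp 3 (t - k')
  set g' : ℝ → ℝ := fun t => 3 * pp 2 (t - k')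
  have hg : ∀ t, HasDerivAt g (g' t) t := fun t => by
    refine ((hasDerivAt_pp 1 (t - k')).comp t ((hasDerivAt_id t).sub_const k')).congr_deriv ?_
    simp only [g']; norm_num
  have hg'c : Continuous g' := ((continuous_pp 2).comp (continuous_sub_right k')).const_mul 3
  obtain ⟨G, hG⟩ := (isCompact_Icc (a := -L) (b := L)).exists_bound_of_continuousOn
    (continuous_iff_continuousAt.2 fun t => (hg t).continuousAt).continuousOn
  obtain ⟨G', hG'⟩ := (isCompact_Icc (a := -L) (b := L)).exists_bound_of_continuousOn hg'c.continuousOn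
  have hev1 := hlim.eventually_lt_const (hU.trans_lt (lt_two_mul_self hE))
  have hev2 := (D.tendsto_error
    (Real.sqrt (2 * G' ^ 2 * En + 8 * G ^ 2 * Z ^ 2 * volume.real B))).eventually_lt_const
      (show (0:ℝ) < Z ^ 2 * E by positivity)
  refine le_of_tendsto hlim' ?_
  filter_upwards [hev1, hev2] with n hn1 hn2
  set w := vn n
  have hw : ContDiff ℝ 1 w := D.contDiff n
  have hwc : Continuous w := hw.continuous
  set ζ := cut x0 ρ R
  have hζ : ContDiff ℝ 1 ζ := contDiff_cut
  have hζz : ∀ x, x ∉ closedBall x0 R → ζ x = 0 := fun x hx => cut_eq_zero hρ hR hx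
  have hgz : ∀ x, x ∉ closedBall x0 R → ∇ ζ x = 0 := fun x hx =>
    grad_zero_outside (tsupport_cut hρ hR) hx
  have hZb : ∀ x, ‖∇ ζ x‖ ≤ Z := fun x => by
    refine (norm_grad_cut hρ hR x).trans ?_
    rw [div_le_div_iff₀ (by nlinarith) hRρ]
    nlinarith [mul_nonneg hRρ.le hρ]
  have hmon : ∀ x, pp 4 (w x - k') ≤ pp 4 (w x - k) := fun x =>
    pow_le_pow_left₀ (le_max_right _ _) (max_le_max (by linarith) le_rfl) 4
  have hcg := continuous_grad hw
  have hcζ := continuous_grad hζ
  have hζc := hζ.continuous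
  have hqc : Continuous fun x => pp 4 (w x - k') / 3 :=
    ((continuous_pp 4).comp (hwc.sub continuous_const)).div_const 3
  have hcac := caccioppoli (q := fun x => pp 4 (w x - k') / 3) D.m_pos (D.eta_nonneg n) (D.contA n)
    (D.lo n) (D.up n) hw D.compact (D.energy n) (D.weak n) hζ
    ((tsupport_cut hρ hR).trans hB) abs_cut_le_one hg hg'c (D.bdd n)
    (fun t ht => ⟨hG t (abs_le.1 ht), hG' t (abs_le.1 ht)⟩) hZb hqc
    (fun x => div_nonneg (pp_nonneg _ _) (by norm_num))
    (fun x _ => ⟨mul_nonneg (by norm_num) (pp_nonneg _ _), le_of_eq (by simp only [g, g', pp]; ring)⟩)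
  set T := ∫ x in closedBall x0 R, pp 4 (w x - k)
  have hq : ∫ x, pp 4 (w x - k') / 3 * ‖∇ ζ x‖ ^ 2 ≤ Z ^ 2 / 3 * T := by
    rw [← integral_const_mul]
    refine integral_le_of_support (by fun_prop) ?_ hBR (fun x hx => by simp [hgz x hx])
      (continuous_const.mul ((continuous_pp 4).comp (hwc.sub continuous_const))) fun x _ => ?_
    · exact (hasCompactSupport_cut (x0 := x0) hρ hR).mono' fun x hx => by
        by_contra hn
        simp [grad_zero_outside (f := ζ) subset_rfl hn] at hx
    · calc pp 4 (w x - k') / 3 * ‖∇ ζ x‖ ^ 2 ≤ pp 4 (w x - k) / 3 * Z ^ 2 := by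
            have := pp_nonneg 4 (w x - k)
            gcongr
            · exact hmon x
            · exact hZb x
        _ = _ := by ring
  set W : E3 → ℝ := fun x => pp 2 (w x - k')
  have hWd : ∀ x, HasGradientAt W ((2 * pp 1 (w x - k')) • ∇ w x) x := fun x => by
    refine hasGradientAt_comp (g := fun t => pp 2 (t - k')) hw x ?_
    refine ((hasDerivAt_pp 0 _).comp (w x) ((hasDerivAt_id (w x)).sub_const k')).congr_deriv ?_
    norm_num
  have hW : ContDiff ℝ 1 W := contDiff_one_comp (g := fun t => pp 2 (t - k'))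
    (g' := fun t => 2 * pp 1 (t - k')) hw (fun t => by
      refine ((hasDerivAt_pp 0 _).comp t ((hasDerivAt_id t).sub_const k')).congr_deriv ?_
      norm_num) (((continuous_pp 1).comp (continuous_sub_right k')).const_mul 2)
  set f : E3 → ℝ := fun x => ζ x * W x
  have hf : ContDiff ℝ 1 f := hζ.mul hW
  have hfc : HasCompactSupport f := (hasCompactSupport_cut hρ hR).mul_right
  have hWc := hW.continuous
  have ha : ∫ x, f x ^ 2 ≤ Real.sqrt (2 * E) ^ 2 := by
    rw [Real.sq_sqrt (by positivity)]
    refine le_trans ?_ hn1.le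
    refine integral_le_of_support (hf.continuous.pow 2) ?_ hBR (fun x hx => by simp [f, hζz x hx])
      ((continuous_pp 4).comp (hwc.sub continuous_const)) fun x _ => ?_
    · exact hfc.mono fun x hx => by simp at hx ⊢; exact hx
    · calc f x ^ 2 ≤ W x ^ 2 := by
            simp only [f, mul_pow]
            refine mul_le_of_le_one_left (sq_nonneg _) ?_
            rw [← sq_abs]
            exact pow_le_one₀ (abs_nonneg _) (abs_cut_le_one x)
        _ = pp 4 (w x - k') := by simp only [W, pp]; ring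
        _ ≤ _ := hmon x
  have hb : ∫ x, ‖∇ f x‖ ^ 2 ≤ (Real.sqrt ((8 * (M / m) ^ 2 + 8) * E) * Z) ^ 2 := by
    rw [mul_pow, Real.sq_sqrt (by positivity)]
    have i1 : Integrable fun x => ζ x ^ 2 * g' (w x) * ‖∇ w x‖ ^ 2 := by
      refine Continuous.integrable_of_hasCompactSupport (by fun_prop) ?_
      exact (hasCompactSupport_cut hρ hR).mono fun x hx => by simp at hx ⊢; tauto
    have i2 : Integrable fun x => pp 4 (w x - k') / 3 * ‖∇ ζ x‖ ^ 2 := by
      refine Continuous.integrable_of_hasCompactSupport (by fun_prop) ?_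
      exact (hasCompactSupport_cut (x0 := x0) hρ hR).mono' fun x hx => by
        by_contra hn
        simp [grad_zero_outside (f := ζ) subset_rfl hn] at hx
    calc ∫ x, ‖∇ f x‖ ^ 2
        ≤ ∫ x, (8 / 3 * (ζ x ^ 2 * g' (w x) * ‖∇ w x‖ ^ 2) +
            6 * (pp 4 (w x - k') / 3 * ‖∇ ζ x‖ ^ 2)) := by
          refine integral_mono_of_nonneg (ae_of_all _ fun x => sq_nonneg _)
            ((i1.const_mul _).add (i2.const_mul _)) (ae_of_all _ fun x => ?_)
          dsimp only [f]
          rw [(hasGradientAt_mul (hζ.differentiable one_ne_zero x).hasGradientAt (hWd x)).gradient]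
          refine ((sq_le_sq₀ (norm_nonneg _) (by positivity)).2 (norm_add_le _ _)).trans ?_
          refine add_sq_le.trans (le_of_eq ?_)
          rw [norm_smul, norm_smul, norm_smul, mul_pow, mul_pow, mul_pow, Real.norm_eq_abs,
            Real.norm_eq_abs, Real.norm_eq_abs, sq_abs, sq_abs, sq_abs]
          simp only [g', W, pp]
          ring
      _ = 8 / 3 * (∫ x, ζ x ^ 2 * g' (w x) * ‖∇ w x‖ ^ 2) +
            6 * ∫ x, pp 4 (w x - k') / 3 * ‖∇ ζ x‖ ^ 2 := by
          rw [integral_add (i1.const_mul _) (i2.const_mul _), integral_const_mul, integral_const_mul]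
      _ ≤ 8 / 3 * (Z ^ 2 * E + 4 * M ^ 2 / m ^ 2 * (Z ^ 2 / 3 * (2 * E))) +
            6 * (Z ^ 2 / 3 * (2 * E)) := by
          have h1 : Z ^ 2 / 3 * T ≤ Z ^ 2 / 3 * (2 * E) := by gcongr
          have h2 : 4 * M ^ 2 / m ^ 2 * (∫ x, pp 4 (w x - k') / 3 * ‖∇ ζ x‖ ^ 2) ≤
              4 * M ^ 2 / m ^ 2 * (Z ^ 2 / 3 * (2 * E)) := by
            gcongr
            exact hq.trans h1
          linarith
      _ ≤ _ := by
          have : 0 ≤ Z ^ 2 * E := by positivity
          have : 0 ≤ Z ^ 2 * E * (M / m) ^ 2 := by positivity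
          rw [show M ^ 2 = (M / m) ^ 2 * m ^ 2 by field_simp]
          field_simp
          nlinarith
  set S := closedBall x0 R ∩ {x | k' < w x}
  have hSm : MeasurableSet S :=
    hBR.measurableSet.inter (isOpen_lt continuous_const hwc).measurableSet
  have hSfin : volume S ≠ ⊤ := ((measure_mono inter_subset_left).trans_lt hBR.measure_lt_top).ne
  have hS : volume S ≤ ENNReal.ofReal (σ ^ 3) := by
    rw [← ENNReal.ofReal_toReal hSfin]
    refine ENNReal.ofReal_le_ofReal ?_
    have hkk : 0 < (k' - k) ^ 4 := pow_pos (sub_pos.2 hk) 4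
    refine le_of_mul_le_mul_right ?_ hkk
    refine le_trans ?_ hvol
    calc (volume S).toReal * (k' - k) ^ 4 = ∫ _ in S, (k' - k) ^ 4 := by
          rw [setIntegral_const, smul_eq_mul, measureReal_def]
      _ ≤ ∫ x in S, pp 4 (w x - k) := by
          refine setIntegral_mono_on (integrableOn_const hSfin)
            ((((continuous_pp 4).comp (hwc.sub continuous_const)).continuousOn.integrableOn_compact hBR).mono_set
              inter_subset_left) hSm fun x hx => ?_
          refine pow_le_pow_left₀ (sub_nonneg.2 hk.le) (le_max_of_le_left ?_) 4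
          have h2 : k' < w x := hx.2
          linarith
      _ ≤ T := setIntegral_mono_set
            (((continuous_pp 4).comp (hwc.sub continuous_const)).continuousOn.integrableOn_compact hBR)
            (ae_of_all _ fun x => pp_nonneg 4 _) (Eventually.of_forall fun x hx => hx.1)
      _ ≤ 2 * E := hn1.le
  refine le_trans ?_ (hsob f hf hfc S σ _ _ hσ hS ha hb (Real.sqrt_nonneg _) (by positivity))
  have hf2i : Integrable fun x => f x ^ 2 :=
    (hf.continuous.pow 2).integrable_of_hasCompactSupport (hfc.mono fun x hx => by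
      simp at hx ⊢; exact hx)
  rw [← integral_indicator hSm, ← integral_indicator measurableSet_closedBall]
  refine integral_mono
    ((((continuous_pp 4).comp (hwc.sub continuous_const)).continuousOn.integrableOn_compact
      (isCompact_closedBall x0 ρ)).integrable_indicator measurableSet_closedBall)
    (hf2i.indicator hSm) fun x => ?_
  by_cases hx : x ∈ closedBall x0 ρ
  · rw [indicator_of_mem hx]
    rcases lt_or_ge k' (w x) with h | h
    · rw [indicator_of_mem (show x ∈ S from ⟨hBρ hx, h⟩)]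
      simp only [f, ζ, cut_eq_one hρ hR hx, W, pp, one_mul]
      exact le_of_eq (by ring)
    · rw [show pp 4 (w x - k') = 0 by simp [pp, max_eq_right (sub_nonpos.2 h)]]
      exact indicator_nonneg (fun _ _ => sq_nonneg _) x
  · rw [indicator_of_notMem hx]
    exact indicator_nonneg (fun _ _ => sq_nonneg _) x

/-- local boundedness -/
theorem local_bound (D : IsData v vn A η δ B m M L En) : ∃ ε : ℝ, 0 < ε ∧
    ∀ (x0 : E3) (r k d : ℝ), 0 < r → closedBall x0 r ⊆ B → 0 < d →
      ∫ x in closedBall x0 r, pp 4 (v x - k) ≤ ε * d ^ 4 * r ^ 3 →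
      ∀ᵐ x, x ∈ closedBall x0 (r / 2) → v x ≤ k + d := by
  obtain ⟨C, hC, hsob⟩ := sobolev_on_small_set
  set S := Real.sqrt (8 * (M / m) ^ 2 + 8)
  set t : ℝ := (1/2) ^ 13 / (24 * C * S + 1)
  have ht : 0 < t := by positivity
  refine ⟨t ^ 3 / 32, by positivity, fun x0 r k d hr hB hd h => ?_⟩
  set ρ : ℕ → ℝ := fun j => r / 2 + r / 2 * (1/2) ^ j
  set kk : ℕ → ℝ := fun j => k + d - d * (1/2) ^ j
  set e : ℕ → ℝ := fun j => t ^ 3 / 32 * d ^ 4 * r ^ 3 * ((1/2) ^ 13) ^ j
  have hρ : ∀ j, r / 2 ≤ ρ j ∧ ρ j ≤ r := fun j => by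
    have h1 : ((1:ℝ)/2) ^ j ≤ 1 := pow_le_one₀ (by norm_num) (by norm_num)
    have h2 : (0:ℝ) ≤ (1/2) ^ j := by positivity
    constructor <;> simp only [ρ] <;> nlinarith
  have hkey : ∀ j, ∫ x in closedBall x0 (ρ j), pp 4 (v x - kk j) ≤ e j := by
    intro j
    induction j with
    | zero => simpa [ρ, kk, e] using h
    | succ j ih =>
      have hp : (0:ℝ) < (1/2) ^ j := by positivity
      have hlt : ρ (j + 1) < ρ j := by simp only [ρ, pow_succ]; nlinarith
      have hklt : kk j < kk (j + 1) := by simp only [kk, pow_succ]; nlinarith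
      have he : 0 < e j := by positivity
      have hσ : 0 ≤ t * r * ((1/2) ^ j) ^ 3 := by positivity
      have := D.iteration_step hC hsob (le_trans (by linarith) (hρ (j+1)).1) hlt
        ((closedBall_subset_closedBall (hρ j).2).trans hB) hklt he hσ (le_of_eq (by
          simp only [kk, e, pow_succ, ← pow_mul, mul_pow]
          ring)) ih
      refine this.trans ?_
      have h1 : Real.sqrt (2 * e j) * Real.sqrt ((8 * (M / m) ^ 2 + 8) * e j) ≤ 3 / 2 * S * e j := by
        rw [Real.sqrt_mul (show (0:ℝ) ≤ 2 by norm_num) (e j),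
          Real.sqrt_mul (show (0:ℝ) ≤ 8 * (M / m) ^ 2 + 8 by positivity) (e j)]
        have h2 : Real.sqrt 2 ≤ 3 / 2 := by
          rw [Real.sqrt_le_iff]; norm_num
        calc Real.sqrt 2 * Real.sqrt (e j) * (S * Real.sqrt (e j))
            = Real.sqrt 2 * S * (Real.sqrt (e j) * Real.sqrt (e j)) := by ring
          _ = Real.sqrt 2 * S * e j := by rw [Real.mul_self_sqrt he.le]
          _ ≤ _ := by gcongr
      have hdiv : 4 / (ρ j - ρ (j + 1)) = 16 / (r * (1/2) ^ j) := by
        rw [show ρ j - ρ (j + 1) = r * (1/2) ^ j / 4 by simp only [ρ, pow_succ]; ring]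
        field_simp
        ring
      rw [hdiv]
      calc C * Real.sqrt (2 * e j) *
            (Real.sqrt ((8 * (M / m) ^ 2 + 8) * e j) * (16 / (r * (1/2) ^ j))) *
            (t * r * ((1/2) ^ j) ^ 3)
          = C * (Real.sqrt (2 * e j) * Real.sqrt ((8 * (M / m) ^ 2 + 8) * e j)) *
              (16 * t * ((1/2) ^ j) ^ 2) := by field_simp
        _ ≤ C * (3 / 2 * S * e j) * (16 * t * 1) := by
            gcongr
            exact pow_le_one₀ hp.le (pow_le_one₀ (by norm_num) (by norm_num))
        _ = 24 * C * S * t * e j := by ring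
        _ ≤ (1/2) ^ 13 * e j := by
            gcongr
            have : t * (24 * C * S + 1) = (1/2) ^ 13 := div_mul_cancel₀ _ (by positivity)
            nlinarith
        _ = e (j + 1) := by simp only [e, pow_succ]; ring
  have hSB : closedBall x0 (r / 2) ⊆ B :=
    (closedBall_subset_closedBall (by linarith)).trans hB
  have hi : ∀ c, IntegrableOn (fun x => pp 4 (v x - c)) (closedBall x0 (r / 2)) := fun c =>
    (D.tendsto_setIntegral (isCompact_closedBall _ _) hSB
      ((continuous_pp 4).comp (continuous_sub_right c))).1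
  have hle : ∀ j, ∫ x in closedBall x0 (r / 2), pp 4 (v x - (k + d)) ≤ e j := fun j => by
    refine le_trans ?_ (hkey j)
    refine (setIntegral_mono_on (hi _) (hi _) measurableSet_closedBall fun x _ => ?_).trans
      (setIntegral_mono_set (D.tendsto_setIntegral (isCompact_closedBall _ _)
        ((closedBall_subset_closedBall (hρ j).2).trans hB)
        ((continuous_pp 4).comp (continuous_sub_right (kk j)))).1
        (ae_of_all _ fun x => pp_nonneg 4 _)
        (Eventually.of_forall (closedBall_subset_closedBall (hρ j).1)))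
    refine pow_le_pow_left₀ (le_max_right _ _) (max_le_max ?_ le_rfl) 4
    have : 0 ≤ d * (1/2 : ℝ) ^ j := by positivity
    simp only [kk]
    linarith
  have hz : ∫ x in closedBall x0 (r / 2), pp 4 (v x - (k + d)) = 0 := by
    have ht0 : Tendsto e atTop (𝓝 0) := ?_
    · exact le_antisymm (ge_of_tendsto ht0 (Eventually.of_forall hle))
        (integral_nonneg fun x => pp_nonneg 4 _)
    simpa [e] using (tendsto_pow_atTop_nhds_zero_of_lt_one
      (show (0:ℝ) ≤ (1/2) ^ 13 by positivity) (by norm_num)).const_mul (t ^ 3 / 32 * d ^ 4 * r ^ 3)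
  have hae := (integral_eq_zero_iff_of_nonneg (fun x => pp_nonneg 4 _) (hi _)).1 hz
  filter_upwards [(ae_restrict_iff' measurableSet_closedBall).1 hae] with x hx hxm
  have h4 : max (v x - (k + d)) 0 ^ 4 = 0 := hx hxm
  have := (pow_eq_zero_iff (by norm_num : (4:ℕ) ≠ 0)).1 h4
  linarith [le_max_left (v x - (k + d)) 0]

/-- bounded below slope and bounded derivative: a smooth version of `s ↦ max s 0` -/
noncomputable def psi (s : ℝ) : ℝ := pp 2 s / Real.sqrt (1 + pp 2 s)

/-- its derivative -/
noncomputable def psi' (s : ℝ) : ℝ :=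
  (2 + pp 2 s) * pp 1 s / ((1 + pp 2 s) * Real.sqrt (1 + pp 2 s))

lemma hasDerivAt_psi (s : ℝ) : HasDerivAt psi (psi' s) s := by
  have h0 : 0 < 1 + pp 2 s := by linarith [pp_nonneg 2 s]
  have hd : HasDerivAt (pp 2) (2 * pp 1 s) s := by simpa using hasDerivAt_pp 0 s
  have hr : 0 < Real.sqrt (1 + pp 2 s) := Real.sqrt_pos.2 h0
  refine (hd.div ((hd.const_add 1).sqrt h0.ne') hr.ne').congr_deriv ?_
  rw [psi', Real.sq_sqrt h0.le]
  field_simp
  rw [Real.sq_sqrt h0.le]
  ring

lemma psi_bounds (s : ℝ) : 0 ≤ psi s ∧ |psi' s| ≤ 2 ∧ s - 1 ≤ psi s ∧ (s ≤ 0 → psi s = 0) := by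
  have h1 : 0 ≤ pp 2 s := pp_nonneg 2 s
  have h2 : 0 < Real.sqrt (1 + pp 2 s) := Real.sqrt_pos.2 (by linarith)
  have h3 : pp 1 s ≤ Real.sqrt (1 + pp 2 s) := by
    rw [Real.le_sqrt (pp_nonneg 1 s) (by linarith)]
    simp [pp]
  refine ⟨div_nonneg h1 h2.le, ?_, ?_, fun h => by simp [psi, pp, max_eq_right h]⟩
  · rw [psi', abs_of_nonneg (by have := pp_nonneg 1 s; positivity), div_le_iff₀ (by positivity)]
    calc (2 + pp 2 s) * pp 1 s ≤ (2 * (1 + pp 2 s)) * Real.sqrt (1 + pp 2 s) :=
          mul_le_mul (by linarith) h3 (pp_nonneg 1 s) (by linarith)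
      _ = _ := by ring
  · rcases le_or_gt s 1 with h | h
    · linarith [div_nonneg h1 h2.le, show psi s = pp 2 s / Real.sqrt (1 + pp 2 s) from rfl]
    · have hp : pp 2 s = s ^ 2 := by simp [pp, max_eq_left (by linarith : (0:ℝ) ≤ s)]
      rw [psi, hp, le_div_iff₀ (by positivity)]
      have : Real.sqrt (1 + s ^ 2) ≤ 1 + s := by
        rw [Real.sqrt_le_iff]; constructor <;> nlinarith
      nlinarith

/-- a global `C¹` test function equal to `1/(b+h-t)` for `t ≤ b` -/
lemma exists_log_test (b : ℝ) {h : ℝ} (hh : 0 < h) : ∃ g g' : ℝ → ℝ,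
    (∀ t, HasDerivAt g (g' t) t) ∧ Continuous g' ∧
      ∀ t, t ≤ b → g t = 1 / (b + h - t) ∧ g' t = 1 / (b + h - t) ^ 2 := by
  set Dn : ℝ → ℝ := fun t => (b + h - t) ^ 2 + pp 2 (h / 2 - (b + h - t))
  have hDn : ∀ t, 0 < Dn t := fun t => by
    simp only [Dn]
    rcases eq_or_ne (b + h - t) 0 with hs | hs
    · rw [hs]; simp [pp, max_eq_left (by linarith : (0:ℝ) ≤ h / 2)]; positivity
    · have := pp_nonneg 2 (h / 2 - (b + h - t))
      positivity
  have hs : ∀ t, HasDerivAt (fun t => b + h - t) (-1) t := fun t => by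
    simpa using (hasDerivAt_id t).const_sub (b + h)
  have hDd : ∀ t, HasDerivAt Dn (-(2 * (b + h - t)) + 2 * pp 1 (h / 2 - (b + h - t))) t :=
    fun t => by
    refine (((hs t).pow 2).add
      ((hasDerivAt_pp 0 _).comp t ((hs t).const_sub (h / 2)))).congr_deriv ?_
    norm_num
  refine ⟨fun t => (b + h - t) / Dn t, fun t =>
    (-Dn t - (b + h - t) * (-(2 * (b + h - t)) + 2 * pp 1 (h / 2 - (b + h - t)))) / Dn t ^ 2,
    fun t => ?_, ?_, fun t ht => ?_⟩
  · refine ((hs t).div (hDd t) (hDn t).ne').congr_deriv ?_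
    ring
  · have := continuous_pp 1
    have hDc : Continuous Dn := continuous_iff_continuousAt.2 fun t => (hDd t).continuousAt
    exact Continuous.div (by fun_prop) (hDc.pow 2) fun t => pow_ne_zero 2 (hDn t).ne'
  · have h1 : h / 2 - (b + h - t) ≤ 0 := by linarith
    have h2 : 0 < b + h - t := by linarith
    simp only [Dn, pp, max_eq_right h1]
    constructor <;> field_simp <;> ring

/-- the logarithm of the reciprocal distance to `b+h` has gradient bounded in `L¹` at the natural
scale -/
lemma log_energy (D : IsData v vn A η δ B m M L En) {x0 : E3} {r b h : ℝ} (hr : 0 < r) (hh : 0 < h)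
    (hB : closedBall x0 r ⊆ B) (hb : ∀ᵐ x, x ∈ closedBall x0 r → v x ≤ b) :
    ∀ᶠ n in atTop, (∀ x ∈ closedBall x0 (r / 2), vn n x ≤ b) ∧
      ∫ x in closedBall x0 (r / 2), 2 * ‖∇ (vn n) x‖ / max (b + h - vn n x) h ≤
        r ^ 2 * (4 * (1 + 4 * M ^ 2 / m ^ 2 * (100 * volume.real (closedBall (0 : E3) 1))) +
          volume.real (closedBall (0 : E3) 1)) := by
  have hm := D.m_pos
  set V := volume.real (closedBall (0 : E3) 1)
  have hV : 0 < V := vol_pos one_pos
  obtain ⟨g, g', hg, hg'c, hgb⟩ := exists_log_test b hh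
  obtain ⟨G, hG⟩ := (isCompact_Icc (a := -L) (b := L)).exists_bound_of_continuousOn
    (continuous_iff_continuousAt.2 fun t => (hg t).continuousAt).continuousOn
  obtain ⟨G', hG'⟩ := (isCompact_Icc (a := -L) (b := L)).exists_bound_of_continuousOn hg'c.continuousOn
  have hev2 := (D.tendsto_error
    (Real.sqrt (2 * G' ^ 2 * En + 8 * G ^ 2 * (10 / r) ^ 2 * volume.real B))).eventually_lt_const hr
  have hev3 := D.delta_tendsto.eventually_lt_const (show (0:ℝ) < r / 4 by linarith)
  have hB3 : closedBall x0 (3 * r / 4) ⊆ B :=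
    (closedBall_subset_closedBall (by linarith)).trans hB
  have hcomp : IsCompact (closedBall x0 (r / 2)) := isCompact_closedBall _ _
  filter_upwards [hev2, hev3] with n hn2 hn3
  set u := vn n
  have hu : ContDiff ℝ 1 u := D.contDiff n
  have huc : Continuous u := hu.continuous
  have hcu := continuous_grad hu
  have hub : ∀ x ∈ closedBall x0 (3 * r / 4), u x ≤ b := fun x hx =>
    D.sup x0 r b hB hb n x (closedBall_subset_closedBall (by linarith) hx)
  set ζ := cut x0 (r / 2) (3 * r / 4)
  have hρ : (0:ℝ) ≤ r / 2 := by linarith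
  have hR : r / 2 < 3 * r / 4 := by linarith
  refine ⟨fun x hx => hub x (closedBall_subset_closedBall hR.le hx), ?_⟩
  have hζ : ContDiff ℝ 1 ζ := contDiff_cut
  have hZb : ∀ x, ‖∇ ζ x‖ ≤ 10 / r := fun x => by
    refine (norm_grad_cut hρ hR x).trans ?_
    rw [div_le_div_iff₀ (by nlinarith) hr]
    nlinarith
  have hcζ := continuous_grad hζ
  have hζc := hζ.continuous
  have hcac := caccioppoli (q := fun _ => 1) D.m_pos (D.eta_nonneg n) (D.contA n)
    (D.lo n) (D.up n) hu D.compact (D.energy n) (D.weak n) hζ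
    ((tsupport_cut hρ hR).trans hB3) abs_cut_le_one hg hg'c (D.bdd n)
    (fun t ht => ⟨hG t (abs_le.1 ht), hG' t (abs_le.1 ht)⟩) hZb continuous_const
    (fun _ => zero_le_one)
    (fun x hx => by
      obtain ⟨h1, h2⟩ := hgb _ (hub x (tsupport_cut hρ hR hx))
      rw [h1, h2]
      exact ⟨by positivity, le_of_eq (by rw [div_pow, one_pow, mul_one])⟩)
  have hq : ∫ x, (1:ℝ) * ‖∇ ζ x‖ ^ 2 ≤ r * (100 * V) := by
    calc ∫ x, (1:ℝ) * ‖∇ ζ x‖ ^ 2 ≤ ∫ _ in closedBall x0 (3 * r / 4), (10 / r) ^ 2 := by
          refine integral_le_of_support (by fun_prop) ?_ (isCompact_closedBall _ _)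
            (fun x hx => by simp [grad_zero_outside (f := ζ) (tsupport_cut hρ hR) hx])
            continuous_const ?_
          · exact (hasCompactSupport_cut (x0 := x0) hρ hR).mono' fun x hx => by
              by_contra hn
              simp [grad_zero_outside (f := ζ) subset_rfl hn] at hx
          · intro x _
            rw [one_mul]
            gcongr
            exact hZb x
      _ ≤ _ := by
          rw [setIntegral_const, smul_eq_mul, vol_closedBall x0 (by linarith)]
          rw [show (3 * r / 4) ^ 3 * V * (10 / r) ^ 2 = 27 / 64 * (r * (100 * V)) by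
            field_simp; ring]
          have : 0 ≤ r * (100 * V) := by positivity
          linarith
  set H : E3 → ℝ := fun x => 2 * ‖∇ u x‖ / max (b + h - u x) h
  have hmax : ∀ x, 0 < max (b + h - u x) h := fun x => lt_max_of_lt_right hh
  have hHc : Continuous H :=
    Continuous.div (by fun_prop) (by fun_prop) fun x => (hmax x).ne'
  set K := 4 * (1 + 4 * M ^ 2 / m ^ 2 * (100 * V))
  have hH2 : ∫ x in closedBall x0 (r / 2), H x ^ 2 ≤ r * K := by
    calc ∫ x in closedBall x0 (r / 2), H x ^ 2
        = ∫ x in closedBall x0 (r / 2), 4 * (ζ x ^ 2 * g' (u x) * ‖∇ u x‖ ^ 2) := by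
          refine setIntegral_congr_fun measurableSet_closedBall fun x hx => ?_
          have hxb := hub x (closedBall_subset_closedBall hR.le hx)
          simp only [H, ζ, max_eq_left (show h ≤ b + h - u x by linarith), cut_eq_one hρ hR hx,
            (hgb _ hxb).2]
          rw [div_pow]
          ring
      _ ≤ ∫ x, 4 * (ζ x ^ 2 * g' (u x) * ‖∇ u x‖ ^ 2) := by
          refine setIntegral_le_integral (Continuous.integrable_of_hasCompactSupport (by fun_prop) ?_)
            (ae_of_all _ fun x => ?_)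
          · exact (hasCompactSupport_cut hρ hR).mono fun x hx => by simp at hx ⊢; tauto
          · by_cases hx : x ∈ closedBall x0 (3 * r / 4)
            · have := (hgb _ (hub x hx)).2
              simp only [Pi.zero_apply, this]
              positivity
            · simp [ζ, cut_eq_zero hρ hR hx]
      _ ≤ _ := by
          rw [integral_const_mul]
          have h4 : 4 * M ^ 2 / m ^ 2 * (∫ x, (1:ℝ) * ‖∇ ζ x‖ ^ 2) ≤
              4 * M ^ 2 / m ^ 2 * (r * (100 * V)) := by gcongr
          simp only [K]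
          linarith
  calc ∫ x in closedBall x0 (r / 2), H x
      ≤ ∫ x in closedBall x0 (r / 2), (r * H x ^ 2 + 1 / r) := by
        refine setIntegral_mono_on (hHc.continuousOn.integrableOn_compact hcomp)
          ((by fun_prop : Continuous fun x => r * H x ^ 2 + 1 / r).continuousOn.integrableOn_compact hcomp)
          measurableSet_closedBall fun x _ => ?_
        have : r * H x ^ 2 + 1 / r - H x = ((r * H x - 1) ^ 2 + r * H x) / r := by
          field_simp; ring
        have : 0 ≤ ((r * H x - 1) ^ 2 + r * H x) / r := by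
          have : 0 ≤ H x := div_nonneg (by positivity) (hmax x).le
          positivity
        linarith
    _ = r * (∫ x in closedBall x0 (r / 2), H x ^ 2) + r ^ 2 / 8 * V := by
        rw [integral_add ((by fun_prop : Continuous fun x => r * H x ^ 2).continuousOn.integrableOn_compact hcomp)
          (continuousOn_const.integrableOn_compact hcomp), integral_const_mul, setIntegral_const,
          smul_eq_mul, vol_closedBall x0 hρ]
        field_simp
        ring
    _ ≤ r * (r * K) + r ^ 2 * V := by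
        gcongr
        nlinarith [sq_nonneg r]
    _ = _ := by ring

/-- the test function in the Poincare inequality is small off a small sublevel -/
lemma log_integral_le {x0 : E3} {r b w h K : ℝ} (hr : 0 < r) (hh : 0 < h) (hw : 0 < w)
    {u : E3 → ℝ} (hu : ContDiff ℝ 1 u) (hub : ∀ x ∈ closedBall x0 (r / 2), u x ≤ b)
    (hK : ∫ x in closedBall x0 (r / 2), 2 * ‖∇ u x‖ / max (b + h - u x) h ≤ r ^ 2 * K)
    (hhalf : volume.real (closedBall x0 (r / 2)) / 4 ≤
      ∫ x in closedBall x0 (r / 2), step ((b - w / 4 - u x) / (w / 4))) :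
    ContinuousOn (fun x => psi (Real.log (w / 4 / (b + h - u x)))) (closedBall x0 (r / 2)) ∧
      ∫ x in closedBall x0 (r / 2), psi (Real.log (w / 4 / (b + h - u x))) ≤ 32 * K * r ^ 3 := by
  set V := volume.real (closedBall (0 : E3) 1)
  have hV : 0 < V := vol_pos one_pos
  have huc : Continuous u := hu.continuous
  have hρ : (0:ℝ) ≤ r / 2 := by linarith
  have hvol2 : volume.real (closedBall x0 (r / 2)) = r ^ 3 / 8 * V := by
    rw [vol_closedBall x0 hρ]; ring
  have hcomp : IsCompact (closedBall x0 (r / 2)) := isCompact_closedBall _ _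
  set H : E3 → ℝ := fun x => 2 * ‖∇ u x‖ / max (b + h - u x) h
  have hmax : ∀ x, 0 < max (b + h - u x) h := fun x => lt_max_of_lt_right hh
  have hHc : Continuous H := by
    have := continuous_grad hu
    exact Continuous.div (by fun_prop) (by fun_prop) fun x => (hmax x).ne'
  have hpos : ∀ x ∈ closedBall x0 (r / 2), h ≤ b + h - u x := fun x hx => by linarith [hub x hx]
  set z : E3 → ℝ := fun x => psi (Real.log (w / 4 / (b + h - u x)))
  set Z := closedBall x0 (r / 2) ∩ {x | u x ≤ b - w / 4}
  have hZm : MeasurableSet Z :=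
    measurableSet_closedBall.inter (isClosed_le huc continuous_const).measurableSet
  set ℓ : ℝ → ℝ := fun t => Real.log (w / 4 / (b + h - t))
  have hd : ∀ x ∈ closedBall x0 (r / 2), HasFDerivAt z
      ((psi' (ℓ (u x)) * (1 / (b + h - u x))) • InnerProductSpace.toDual ℝ E3 (∇ u x)) x := by
    intro x hx
    have hp : 0 < b + h - u x := hh.trans_le (hpos x hx)
    have hq : w / 4 / (b + h - u x) ≠ 0 := by positivity
    have h1 : HasDerivAt ℓ (1 / (b + h - u x)) (u x) := by
      refine ((((hasDerivAt_const (u x) (w / 4)).div ((hasDerivAt_id (u x)).const_sub (b + h))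
        hp.ne').log hq)).congr_deriv ?_
      simp only [Pi.div_apply, id]
      field_simp
      ring
    exact ((hasDerivAt_psi _).comp (u x) h1).comp_hasFDerivAt x (hasFDerivAt_grad hu x)
  have hnorm : ∀ x ∈ closedBall x0 (r / 2),
      ‖(psi' (ℓ (u x)) * (1 / (b + h - u x))) • InnerProductSpace.toDual ℝ E3 (∇ u x)‖ ≤ H x := by
    intro x hx
    have hp : 0 < b + h - u x := hh.trans_le (hpos x hx)
    rw [norm_smul, LinearIsometryEquiv.norm_map, Real.norm_eq_abs, abs_mul,
      abs_of_pos (by positivity : 0 < 1 / (b + h - u x))]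
    calc |psi' (ℓ (u x))| * (1 / (b + h - u x)) * ‖∇ u x‖
        ≤ 2 * (1 / (b + h - u x)) * ‖∇ u x‖ := by gcongr; exact (psi_bounds _).2.1
      _ = H x := by simp only [H, max_eq_left (hpos x hx)]; ring
  have hpoinc := poincare hρ hd hHc hnorm (Z := Z) inter_subset_left hZm (fun x hx => by
    refine (psi_bounds _).2.2.2 (Real.log_nonpos ?_ ?_)
    · exact div_nonneg (by linarith) (hh.le.trans (hpos x hx.1))
    · rw [div_le_one (hh.trans_le (hpos x hx.1))]
      linarith [show u x ≤ b - w / 4 from hx.2])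
  have hvZ : r ^ 3 / 32 * V ≤ volume.real Z := by
    have hst : Continuous step :=
      continuous_iff_continuousAt.2 fun t => (hasDerivAt_step t).continuousAt
    have hi : IntegrableOn (fun x => step ((b - w / 4 - u x) / (w / 4))) (closedBall x0 (r / 2)) :=
      (by fun_prop : Continuous fun x => step ((b - w / 4 - u x) / (w / 4))).continuousOn.integrableOn_compact hcomp
    calc r ^ 3 / 32 * V = volume.real (closedBall x0 (r / 2)) / 4 := by rw [hvol2]; ring
      _ ≤ _ := hhalf
      _ ≤ ∫ x in closedBall x0 (r / 2), Z.indicator (fun _ => (1:ℝ)) x := by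
          refine setIntegral_mono_on hi
            ((integrableOn_const hcomp.measure_lt_top.ne).indicator hZm)
            measurableSet_closedBall fun x hx => ?_
          by_cases hxz : x ∈ Z
          · rw [indicator_of_mem hxz]; exact (step_bounds _).2.1
          · rw [indicator_of_notMem hxz]
            refine le_of_eq ((step_bounds _).2.2.2.1 ?_)
            have : ¬ u x ≤ b - w / 4 := fun h' => hxz ⟨hx, h'⟩
            refine div_nonpos_of_nonpos_of_nonneg ?_ (by linarith)
            linarith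
      _ = _ := by
          rw [setIntegral_indicator hZm, setIntegral_const, smul_eq_mul, mul_one,
            inter_eq_right.2 inter_subset_left]
  have hz0 : 0 ≤ ∫ x in closedBall x0 (r / 2), z x :=
    setIntegral_nonneg measurableSet_closedBall fun x _ => (psi_bounds _).1
  refine ⟨fun x hx => (hd x hx).continuousAt.continuousWithinAt, ?_⟩
  refine le_of_mul_le_mul_right ?_ (show 0 < r ^ 3 / 32 * V by positivity)
  refine (mul_le_mul_of_nonneg_left hvZ hz0).trans (hpoinc.trans ?_)
  rw [hvol2]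
  calc 16 * (r / 2) * (r ^ 3 / 8 * V) * ∫ x in closedBall x0 (r / 2), H x
      ≤ 16 * (r / 2) * (r ^ 3 / 8 * V) * (r ^ 2 * K) := by gcongr
    _ = _ := by ring

lemma level_le {b h w l t : ℝ} (hh : 0 < h) (ht : b - h < t) (htb : t ≤ b)
    (hhw : h * (8 * Real.exp l) = w) : l ≤ Real.log (w / 4 / (b + h - t)) := by
  have hp : 0 < b + h - t := by linarith
  have he := Real.exp_pos l
  have hw : 0 < w := by rw [← hhw]; positivity
  rw [Real.le_log_iff_exp_le (by positivity), le_div_iff₀ hp, ← hhw]
  have := mul_le_mul_of_nonneg_left (show b + h - t ≤ 2 * h by linarith) he.le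
  linarith

/-- the supremum decreases if `v` is below the middle value on half of the ball -/
theorem decrease (D : IsData v vn A η δ B m M L En) : ∃ γ : ℝ, 0 < γ ∧ γ ≤ 1/4 ∧
    ∀ (x0 : E3) (r b w : ℝ), 0 < r → closedBall x0 r ⊆ B → 0 < w →
      (∀ᵐ x, x ∈ closedBall x0 r → v x ≤ b) →
      volume.real (closedBall x0 (r / 2)) / 2 ≤
        ∫ x in closedBall x0 (r / 2), step ((b - w / 4 - v x) / (w / 4)) →
      ∀ᵐ x, x ∈ closedBall x0 (r / 4) → v x ≤ b - γ * w := by
  obtain ⟨ε, hε, hloc⟩ := D.local_bound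
  have hm := D.m_pos
  set V := volume.real (closedBall (0 : E3) 1) with hVdef
  have hV : 0 < V := vol_pos one_pos
  set K := 4 * (1 + 4 * M ^ 2 / m ^ 2 * (100 * V)) + V with hKdef
  have hK : 0 < K := by positivity
  obtain ⟨l, hl, hlK⟩ : ∃ l : ℝ, 2 ≤ l ∧ 4096 * K ≤ ε * (l - 1) := by
    refine ⟨4096 * K / ε + 2, by have : 0 ≤ 4096 * K / ε := by positivity
                                 linarith, ?_⟩
    rw [show ε * (4096 * K / ε + 2 - 1) = 4096 * K + ε by field_simp; ring]
    linarith
  obtain ⟨e, he, he1, hel⟩ : ∃ e : ℝ, 0 < e ∧ e ≤ 1/8 ∧ e * (8 * Real.exp l) = 1 := by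
    refine ⟨1 / (8 * Real.exp l), by positivity, ?_, by field_simp⟩
    rw [div_le_div_iff₀ (by positivity) (by norm_num)]
    linarith [Real.one_le_exp (show 0 ≤ l by linarith)]
  refine ⟨e / 2, by positivity, by linarith, fun x0 r b w hr hB hw hb hhalf => ?_⟩
  have hh : 0 < e * w := by positivity
  have hB2 : closedBall x0 (r / 2) ⊆ B := (closedBall_subset_closedBall (by linarith)).trans hB
  have hcomp : IsCompact (closedBall x0 (r / 2)) := isCompact_closedBall _ _
  have hpp : Continuous fun s : ℝ => pp 4 (s - (b - e * w)) :=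
    (continuous_pp 4).comp (continuous_sub_right _)
  have hstep : Continuous fun s : ℝ => step ((b - w / 4 - s) / (w / 4)) :=
    (continuous_iff_continuousAt.2 fun t => (hasDerivAt_step t).continuousAt).comp (by fun_prop)
  obtain ⟨-, hlim⟩ := D.tendsto_setIntegral hcomp hB2 hpp
  obtain ⟨-, hlim2⟩ := D.tendsto_setIntegral hcomp hB2 hstep
  have hev1 := hlim2.eventually_const_lt (lt_of_lt_of_le
    (half_lt_self (half_pos (vol_pos (x := x0) (half_pos hr)))) hhalf)
  have hmain : ∫ x in closedBall x0 (r / 2), pp 4 (v x - (b - e * w)) ≤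
      ε * (e * w / 2) ^ 4 * (r / 2) ^ 3 := by
    refine le_of_tendsto hlim ?_
    filter_upwards [hev1, D.log_energy hr hh hB hb] with n hn1 hn2
    obtain ⟨hub, hen⟩ := hn2
    rw [← hVdef, ← hKdef] at hen
    obtain ⟨hzc, hzb⟩ := log_integral_le hr hh hw (D.contDiff n) hub hen (by linarith)
    have hc : 0 ≤ (e * w) ^ 4 / (l - 1) := div_nonneg (by positivity) (by linarith)
    calc ∫ x in closedBall x0 (r / 2), pp 4 (vn n x - (b - e * w))
        ≤ ∫ x in closedBall x0 (r / 2), (e * w) ^ 4 / (l - 1) *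
            psi (Real.log (w / 4 / (b + e * w - vn n x))) := by
          refine setIntegral_mono_on
            ((hpp.comp (D.contDiff n).continuous).continuousOn.integrableOn_compact hcomp)
            ((continuousOn_const.mul hzc).integrableOn_compact hcomp) measurableSet_closedBall
            fun x hx => ?_
          rcases le_or_gt (vn n x) (b - e * w) with h1 | h1
          · rw [show pp 4 (vn n x - (b - e * w)) = 0 by simp [pp, max_eq_right (sub_nonpos.2 h1)]]
            exact mul_nonneg hc (psi_bounds _).1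
          · have hz := level_le hh h1 (hub x hx) (w := w) (l := l)
              (by rw [mul_right_comm, hel, one_mul])
            have hz2 := (psi_bounds (Real.log (w / 4 / (b + e * w - vn n x)))).2.2.1
            calc pp 4 (vn n x - (b - e * w)) ≤ (e * w) ^ 4 := by
                  refine pow_le_pow_left₀ (le_max_right _ _) (max_le ?_ hh.le) 4
                  linarith [hub x hx]
              _ = (e * w) ^ 4 / (l - 1) * (l - 1) :=
                  (div_mul_cancel₀ _ (show l - 1 ≠ 0 by linarith)).symm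
              _ ≤ _ := mul_le_mul_of_nonneg_left (by linarith) hc
      _ ≤ (e * w) ^ 4 / (l - 1) * (32 * K * r ^ 3) := by
          rw [integral_const_mul]
          exact mul_le_mul_of_nonneg_left hzb hc
      _ ≤ _ := by
          rw [div_mul_eq_mul_div, div_le_iff₀ (by linarith)]
          calc (e * w) ^ 4 * (32 * K * r ^ 3)
              = (e * w) ^ 4 * r ^ 3 / 128 * (4096 * K) := by ring
            _ ≤ (e * w) ^ 4 * r ^ 3 / 128 * (ε * (l - 1)) := by gcongr
            _ = _ := by ring
  filter_upwards [hloc x0 (r / 2) (b - e * w) (e * w / 2) (half_pos hr) hB2 (half_pos hh) hmain]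
    with x hx hxm
  have := hx (by rwa [div_div, show (2:ℝ) * 2 = 4 by norm_num])
  linarith

/-- decrease of the oscillation -/
theorem oscillation_step (D : IsData v vn A η δ B m M L En) : ∃ θ : ℝ, 0 < θ ∧ θ < 1 ∧
    ∀ (x0 : E3) (r a b : ℝ), 0 < r → closedBall x0 r ⊆ B →
      (∀ᵐ x, x ∈ closedBall x0 r → a ≤ v x ∧ v x ≤ b) → a < b →
      ∃ a' b', a' < b' ∧ b' - a' ≤ θ * (b - a) ∧
        ∀ᵐ x, x ∈ closedBall x0 (r / 4) → a' ≤ v x ∧ v x ≤ b' := by
  obtain ⟨γ₁, h1, h1', hd1⟩ := D.decrease
  obtain ⟨γ₂, h2, h2', hd2⟩ := D.neg.decrease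
  set γ := min γ₁ γ₂
  have hg1 : γ ≤ γ₁ := min_le_left _ _
  have hg2 : γ ≤ γ₂ := min_le_right _ _
  have hg0 : 0 < γ := lt_min h1 h2
  refine ⟨1 - γ, by linarith, by linarith, fun x0 r a b hr hB hv hab => ?_⟩
  set w := b - a
  have hw : 0 < w := sub_pos.2 hab
  set S := closedBall x0 (r / 2)
  have hSB : S ⊆ B := (closedBall_subset_closedBall (by linarith)).trans hB
  have hsm : closedBall x0 (r / 4) ⊆ closedBall x0 r :=
    closedBall_subset_closedBall (by linarith)
  have hst : Continuous step := continuous_iff_continuousAt.2 fun t => (hasDerivAt_step t).continuousAt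
  have i1 := (D.tendsto_setIntegral (isCompact_closedBall x0 (r/2)) hSB
    (φ := fun s => step ((b - w / 4 - s) / (w / 4))) (by fun_prop)).1
  have i2 := (D.tendsto_setIntegral (isCompact_closedBall x0 (r/2)) hSB
    (φ := fun s => step ((-a - w / 4 - -s) / (w / 4))) (by fun_prop)).1
  have hsum : volume.real S ≤ (∫ x in S, step ((b - w / 4 - v x) / (w / 4))) +
      ∫ x in S, step ((-a - w / 4 - -v x) / (w / 4)) := by
    rw [← integral_add i1 i2]
    calc volume.real S = ∫ _ in S, (1:ℝ) := by rw [setIntegral_const, smul_eq_mul, mul_one]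
      _ ≤ _ := by
          refine setIntegral_mono_on (continuousOn_const.integrableOn_compact (isCompact_closedBall _ _))
            (i1.add i2) measurableSet_closedBall fun x _ => ?_
          rcases le_or_gt (v x) (b - w / 2) with hx | hx
          · rw [(step_bounds _).2.2.2.2 (by rw [one_le_div (by positivity)]; linarith)]
            linarith [(step_bounds ((-a - w / 4 - -v x) / (w / 4))).1]
          · rw [(step_bounds ((-a - w / 4 - -v x) / (w / 4))).2.2.2.2
              (by rw [one_le_div (by positivity)]; simp only [w] at hx ⊢; linarith)]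
            linarith [(step_bounds ((b - w / 4 - v x) / (w / 4))).1]
  by_cases hc : volume.real S / 2 ≤ ∫ x in S, step ((b - w / 4 - v x) / (w / 4))
  · have hγw : γ * w ≤ γ₁ * w := by gcongr
    have hγ1w : γ₁ * w ≤ 1/4 * w := by gcongr
    refine ⟨a, b - γ₁ * w, by simp only [w] at *; linarith, by simp only [w] at *; linarith, ?_⟩
    filter_upwards [hd1 x0 r b w hr hB hw (hv.mono fun x h hx => (h hx).2) hc, hv] with x hx1 hx2 hx
    exact ⟨(hx2 (hsm hx)).1, hx1 hx⟩
  · have hγw : γ * w ≤ γ₂ * w := by gcongr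
    have hγ2w : γ₂ * w ≤ 1/4 * w := by gcongr
    refine ⟨a + γ₂ * w, b, by simp only [w] at *; linarith, by simp only [w] at *; linarith, ?_⟩
    filter_upwards [hd2 x0 r (-a) w hr hB hw (hv.mono fun x h hx => by linarith [(h hx).1])
      (by linarith [not_le.1 hc]), hv] with x hx1 hx2 hx
    exact ⟨by linarith [hx1 hx], (hx2 (hsm hx)).2⟩

/-- De Giorgi: the approximations converge uniformly on the smaller ball to a continuous function
equal to `v` almost everywhere, with geometric decay of the oscillation. -/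
theorem holder (D : IsData v vn A η δ B m M L En) {x0 : E3} {R : ℝ} (hR : 0 < R)
    (hB : closedBall x0 R ⊆ B) :
    ∃ g : E3 → ℝ, TendstoUniformlyOn vn g atTop (closedBall x0 (R / 2)) ∧
      ContinuousOn g (closedBall x0 (R / 2)) ∧
      (∀ᵐ x, x ∈ closedBall x0 (R / 2) → g x = v x) ∧
      ∃ θ : ℝ, 0 < θ ∧ θ < 1 ∧ ∀ j : ℕ, ∀ x ∈ closedBall x0 (R / 2), ∀ y ∈ closedBall x0 (R / 2),
        dist y x ≤ R / 2 / 4 ^ j / 2 → |g y - g x| ≤ (2 * |L| + 1) * θ ^ j := by
  obtain ⟨θ, hθ, hθ1, hosc⟩ := D.oscillation_step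
  set r0 := R / 2
  have hr0 : 0 < r0 := half_pos hR
  set Kb := closedBall x0 (R / 2)
  have hsub : ∀ x ∈ Kb, ∀ j : ℕ, closedBall x (r0 / 4 ^ j) ⊆ B := by
    intro x hx j
    refine Subset.trans (closedBall_subset_closedBall' ?_) hB
    have : r0 / 4 ^ j ≤ R / 2 :=
      div_le_self hr0.le (one_le_pow₀ (by norm_num))
    linarith [mem_closedBall.1 hx]
  have hiter : ∀ x ∈ Kb, ∀ j : ℕ, ∃ a b, a < b ∧ b - a ≤ (2 * |L| + 1) * θ ^ j ∧
      ∀ᵐ y, y ∈ closedBall x (r0 / 4 ^ j) → a ≤ v y ∧ v y ≤ b := by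
    intro x hx j
    induction j with
    | zero =>
      refine ⟨-|L| - 1/2, |L| + 1/2, by linarith [abs_nonneg L], le_of_eq (by ring), ?_⟩
      filter_upwards [D.ae_bdd] with y hy hym
      have := abs_le.1 (hy (hsub x hx 0 hym))
      constructor <;> linarith [le_abs_self L]
    | succ j ih =>
      obtain ⟨a, b, hab, hw, hv⟩ := ih
      obtain ⟨a', b', h1, h2, h3⟩ := hosc x (r0 / 4 ^ j) a b (by positivity)
        (hsub x hx j) hv hab
      refine ⟨a', b', h1, h2.trans ?_, by simpa [pow_succ, div_div] using h3⟩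
      rw [pow_succ]
      nlinarith [mul_le_mul_of_nonneg_left hw hθ.le]
  have hclose : ∀ j : ℕ, ∀ᶠ N in atTop, ∀ n ≥ N, ∀ k ≥ N, ∀ x ∈ Kb, ∀ y,
      dist y x ≤ r0 / 4 ^ j / 2 → |vn n y - vn k x| ≤ (2 * |L| + 1) * θ ^ j := by
    intro j
    obtain ⟨N, hN⟩ := eventually_atTop.1
      (D.delta_tendsto.eventually_lt_const (show (0:ℝ) < r0 / 4 ^ j / 2 by positivity))
    filter_upwards [eventually_ge_atTop N] with N' hN' n hn k hk x hx y hy
    obtain ⟨a, b, -, hw, hv⟩ := hiter x hx j
    have hin : ∀ i ≥ N, ∀ z, dist z x ≤ r0 / 4 ^ j / 2 → a ≤ vn i z ∧ vn i z ≤ b := by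
      intro i hi z hz
      have hm : z ∈ closedBall x (r0 / 4 ^ j - δ i) := by
        rw [mem_closedBall]; linarith [hN i hi]
      exact ⟨D.inf x _ a (hsub x hx j) (hv.mono fun z h hz => (h hz).1) i z hm,
        D.sup x _ b (hsub x hx j) (hv.mono fun z h hz => (h hz).2) i z hm⟩
    obtain ⟨p1, p2⟩ := hin n (hN'.trans hn) y hy
    obtain ⟨q1, q2⟩ := hin k (hN'.trans hk) x (by rw [dist_self]; positivity)
    rw [abs_le]; constructor <;> linarith
  have hsmall : Tendsto (fun j : ℕ => (2 * |L| + 1) * θ ^ j) atTop (𝓝 0) := by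
    simpa using (tendsto_pow_atTop_nhds_zero_of_lt_one hθ.le hθ1).const_mul (2 * |L| + 1)
  have hcauchy : UniformCauchySeqOn vn atTop Kb := by
    rw [Metric.uniformCauchySeqOn_iff]
    intro ε hε
    obtain ⟨j, hj⟩ := (hsmall.eventually_lt_const hε).exists
    obtain ⟨N, hN⟩ := (hclose j).exists
    refine ⟨N, fun n hn k hk x hx => ?_⟩
    rw [Real.dist_eq]
    exact (hN n hn k hk x hx x (by rw [dist_self]; positivity)).trans_lt hj
  have hex : ∀ x ∈ Kb, ∃ l, Tendsto (fun n => vn n x) atTop (𝓝 l) := fun x hx =>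
    cauchySeq_tendsto_of_complete (hcauchy.cauchy_map hx)
  choose! g hg using hex
  have hu := hcauchy.tendstoUniformlyOn_of_tendsto hg
  refine ⟨g, hu, hu.continuousOn (Eventually.of_forall fun n => (D.contDiff n).continuous.continuousOn).frequently,
    ?_, θ, hθ, hθ1, fun j x hx y hy hd => ?_⟩
  · filter_upwards [D.conv] with x h hx
    refine tendsto_nhds_unique (hg x hx) (h (hB (closedBall_subset_closedBall (by linarith) hx)))
  · refine le_of_tendsto ((hg y hy).sub (hg x hx)).abs ?_
    obtain ⟨N, hN⟩ := (hclose j).exists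
    filter_upwards [eventually_ge_atTop N] with n hn
    exact hN n hn n hn x hx y hd

end IsData

end Vale.Agent.P080.DG
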