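import Vale.Agent.P080.Approx.Holder.Basic

/-!
# A Poincare inequality for functions vanishing on a subset of a ball
-/

namespace Vale.Agent.P080.DG

open scoped Topology RealInnerProductSpace
open Set Filter MeasureTheory Metric

variable {x0 : E3} {r : ℝ} {H : E3 → ℝ}

lemma scaled_integral_le (hH : Continuous H) (h0 : ∀ x ∈ closedBall x0 r, 0 ≤ H x) {p : E3}
    (hp : p ∈ closedBall x0 r) {s : ℝ} (hs : 1/2 ≤ s) (hs1 : s ≤ 1) :
    ∫ x in closedBall x0 r, H (p + s • (x - p)) ≤ 8 * ∫ x in closedBall x0 r, H x := by
  set B := closedBall x0 r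
  have hBc : IsCompact B := isCompact_closedBall x0 r
  set F := B.indicator H
  have hF0 : ∀ x, 0 ≤ F x := indicator_nonneg h0
  have hFi : Integrable F :=
    (hH.continuousOn.integrableOn_compact hBc).integrable_indicator hBc.measurableSet
  have hs0 : 0 < s := by linarith
  have hFc : Integrable fun x => F (p + s • (x - p)) := by
    have := ((hFi.comp_add_left p).comp_smul hs0.ne').comp_sub_right p
    simpa using this
  calc ∫ x in B, H (p + s • (x - p)) = ∫ x in B, F (p + s • (x - p)) := by
        refine setIntegral_congr_fun hBc.measurableSet fun x hx => (indicator_of_mem ?_ H).symm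
        have hc : Convex ℝ B := convex_closedBall x0 r
        have : p + s • (x - p) = (1 - s) • p + s • x := by module
        rw [this]
        exact hc hp hx (by linarith) hs0.le (by ring)
    _ ≤ ∫ x, F (p + s • (x - p)) := setIntegral_le_integral hFc (ae_of_all _ fun x => hF0 _)
    _ = |(s ^ 3)⁻¹| * ∫ x, F x := by
        rw [integral_sub_right_eq_self (fun x => F (p + s • x)) p,
          Measure.integral_comp_smul volume (fun x => F (p + x)) s, integral_add_left_eq_self F p,
          smul_eq_mul]
        simp [E3]
    _ ≤ 8 * ∫ x, F x := by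
        refine mul_le_mul_of_nonneg_right ?_ (integral_nonneg hF0)
        rw [abs_of_pos (by positivity), inv_le_comm₀ (by positivity) (by norm_num)]
        calc (8:ℝ)⁻¹ = (1/2) ^ 3 := by norm_num
          _ ≤ s ^ 3 := pow_le_pow_left₀ (by norm_num) hs 3
    _ = 8 * ∫ x in B, H x := by rw [integral_indicator hBc.measurableSet]

lemma segment_integral_le (hH : Continuous H) (h0 : ∀ x ∈ closedBall x0 r, 0 ≤ H x) {p : E3}
    (hp : p ∈ closedBall x0 r) {s : ℝ → ℝ} (hs : Continuous s) {a b : ℝ} (hab : a ≤ b)
    (hsb : ∀ t ∈ Icc a b, 1/2 ≤ s t ∧ s t ≤ 1) :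
    ∫ x in closedBall x0 r, ∫ t in a..b, H (p + s t • (x - p)) ≤
      (b - a) * (8 * ∫ x in closedBall x0 r, H x) := by
  set B := closedBall x0 r
  have hBc : IsCompact B := isCompact_closedBall x0 r
  have hK : Continuous fun q : ℝ × E3 => H (p + s q.1 • (q.2 - p)) := by fun_prop
  have hint : Integrable (Function.uncurry fun t x => H (p + s t • (x - p)))
      ((volume.restrict (uIoc a b)).prod (volume.restrict B)) := by
    rw [Measure.prod_restrict]
    exact (hK.continuousOn.integrableOn_compact (isCompact_uIcc.prod hBc)).mono_set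
      (prod_mono uIoc_subset_uIcc Subset.rfl)
  rw [← intervalIntegral_integral_swap hint]
  have hc : Continuous fun t => ∫ x in B, H (p + s t • (x - p)) :=
    continuous_parametric_integral_of_continuous hK hBc
  calc ∫ t in a..b, ∫ x in B, H (p + s t • (x - p))
      ≤ ∫ t in a..b, 8 * ∫ x in B, H x :=
        intervalIntegral.integral_mono_on hab (hc.intervalIntegrable _ _)
          (continuous_const.intervalIntegrable _ _)
          fun t ht => scaled_integral_le hH h0 hp (hsb t ht).1 (hsb t ht).2
    _ = (b - a) * (8 * ∫ x in B, H x) := by simp; ring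

theorem poincare {z : E3 → ℝ} {z' : E3 → E3 →L[ℝ] ℝ} {Z : Set E3} (hr : 0 ≤ r)
    (hz : ∀ x ∈ closedBall x0 r, HasFDerivAt z (z' x) x) (hH : Continuous H)
    (hb : ∀ x ∈ closedBall x0 r, ‖z' x‖ ≤ H x) (hZ : Z ⊆ closedBall x0 r) (hZm : MeasurableSet Z)
    (hz0 : ∀ y ∈ Z, z y = 0) :
    (∫ x in closedBall x0 r, z x) * volume.real Z ≤
      16 * r * volume.real (closedBall x0 r) * ∫ x in closedBall x0 r, H x := by
  set B := closedBall x0 r
  have hBc : IsCompact B := isCompact_closedBall x0 r
  have h0 : ∀ x ∈ B, 0 ≤ H x := fun x hx => (norm_nonneg _).trans (hb x hx)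
  have hseg : ∀ {x y : E3}, x ∈ B → y ∈ B → ∀ {t : ℝ}, t ∈ Icc (0:ℝ) 1 → x + t • (y - x) ∈ B := by
    intro x y hx hy t ht
    have : x + t • (y - x) = (1 - t) • x + t • y := by module
    rw [this]
    exact convex_closedBall x0 r hx hy (by linarith [ht.2]) ht.1 (by ring)
  set G : ℝ → ℝ → E3 → E3 → ℝ := fun a b x y => ∫ t in a..b, H (x + t • (y - x))
  have hGc : ∀ a b, Continuous fun q : E3 × E3 => G a b q.1 q.2 := fun a b =>
    intervalIntegral.continuous_parametric_intervalIntegral_of_continuous' (by fun_prop) a b
  have hzc : ContinuousOn z B := fun x hx => (hz x hx).continuousAt.continuousWithinAt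
  -- pointwise segment bound
  have hpt : ∀ x ∈ B, ∀ y ∈ Z, z x ≤ 2 * r * G 0 1 x y := by
    intro x hx y hy
    have hd : ∀ t ∈ Icc (0:ℝ) 1, HasDerivAt (fun t => -z (x + t • (y - x)))
        (-(z' (x + t • (y - x)) (y - x))) t := by
      intro t ht
      have h1 : HasDerivAt (fun t : ℝ => x + t • (y - x)) (y - x) t := by
        simpa using ((hasDerivAt_id t).smul_const (y - x)).const_add x
      exact ((hz _ (hseg hx (hZ hy) ht)).comp_hasDerivAt t h1).neg
    have hφ : Continuous fun t : ℝ => 2 * r * H (x + t • (y - x)) := by fun_prop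
    have := intervalIntegral.sub_le_integral_of_hasDeriv_right_of_le zero_le_one
      (fun t ht => (hd t ht).continuousAt.continuousWithinAt)
      (fun t ht => (hd t (Ioo_subset_Icc_self ht)).hasDerivWithinAt)
      (hφ.continuousOn.integrableOn_compact isCompact_Icc) (fun t ht => by
        have hm := hseg hx (hZ hy) (Ioo_subset_Icc_self ht)
        have hn : ‖y - x‖ ≤ 2 * r := by
          have h1 := mem_closedBall.1 (hZ hy)
          have h2 := mem_closedBall.1 hx
          rw [← dist_eq_norm]
          linarith [dist_triangle y x0 x, dist_comm x0 x]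
        calc -(z' (x + t • (y - x)) (y - x)) ≤ ‖z' (x + t • (y - x))‖ * ‖y - x‖ :=
              (neg_le_abs _).trans (by rw [← Real.norm_eq_abs]; exact ContinuousLinearMap.le_opNorm _ _)
          _ ≤ H (x + t • (y - x)) * (2 * r) := by
              gcongr
              · exact h0 _ hm
              · exact hb _ hm
          _ = _ := mul_comm _ _)
    simp only [zero_smul, add_zero, one_smul, add_sub_cancel, hz0 y hy,
      intervalIntegral.integral_const_mul] at this
    linarith
  set I : ℝ → ℝ → E3 → ℝ := fun a b y => ∫ x in B, G a b x y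
  have hIc : ∀ a b, Continuous (I a b) := fun a b =>
    continuous_parametric_integral_of_continuous (f := fun y x => G a b x y)
      ((hGc a b).comp continuous_swap) hBc
  have hG0 : ∀ x ∈ B, ∀ y ∈ B, 0 ≤ G 0 1 x y := fun x hx y hy =>
    intervalIntegral.integral_nonneg zero_le_one fun t ht => h0 _ (hseg hx hy ht)
  have hA : (∫ x in B, z x) * volume.real Z ≤ 2 * r * ∫ y in B, I 0 1 y := by
    calc (∫ x in B, z x) * volume.real Z = ∫ y in Z, ∫ x in B, z x := by
          rw [setIntegral_const, smul_eq_mul, mul_comm]
      _ ≤ ∫ y in Z, 2 * r * I 0 1 y := by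
          have hIi : IntegrableOn (fun y => 2 * r * I 0 1 y) Z :=
            ((continuous_const.mul (hIc 0 1)).continuousOn.integrableOn_compact hBc).mono_set hZ
          have hfin : volume Z ≠ ⊤ :=
            ((measure_mono hZ).trans_lt hBc.measure_lt_top).ne
          refine setIntegral_mono_on (integrableOn_const hfin) hIi hZm fun y hy => ?_
          rw [← integral_const_mul]
          exact setIntegral_mono_on (hzc.integrableOn_compact hBc)
            ((continuous_const.mul ((hGc 0 1).comp (continuous_id.prodMk continuous_const))).continuousOn.integrableOn_compact hBc)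
            hBc.measurableSet fun x hx => hpt x hx y hy
      _ ≤ ∫ y in B, 2 * r * I 0 1 y := by
          refine setIntegral_mono_set
            ((continuous_const.mul (hIc 0 1)).continuousOn.integrableOn_compact hBc) ?_
            (Eventually.of_forall hZ)
          filter_upwards [ae_restrict_mem hBc.measurableSet] with y hy
          exact mul_nonneg (by linarith) (setIntegral_nonneg hBc.measurableSet fun x hx => hG0 x hx y hy)
      _ = _ := integral_const_mul _ _
  have hsplit : ∀ y, I 0 1 y = I 0 (1/2) y + I (1/2) 1 y := by
    intro y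
    simp only [I]
    rw [← integral_add]
    · refine integral_congr_ae (ae_of_all _ fun x => ?_)
      exact (intervalIntegral.integral_add_adjacent_intervals
        ((by fun_prop : Continuous fun t : ℝ => H (x + t • (y - x))).intervalIntegrable _ _)
        ((by fun_prop : Continuous fun t : ℝ => H (x + t • (y - x))).intervalIntegrable _ _)).symm
    · exact ((hGc _ _).comp (continuous_id.prodMk continuous_const)).continuousOn.integrableOn_compact hBc
    · exact ((hGc _ _).comp (continuous_id.prodMk continuous_const)).continuousOn.integrableOn_compact hBc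
  have hB0 : 0 ≤ volume.real B := measureReal_nonneg
  have h1 : ∫ y in B, I 0 (1/2) y ≤ volume.real B * (4 * ∫ x in B, H x) := by
    calc ∫ y in B, I 0 (1/2) y ≤ ∫ y in B, 4 * ∫ x in B, H x := by
          refine setIntegral_mono_on ((hIc _ _).continuousOn.integrableOn_compact hBc)
            (continuousOn_const.integrableOn_compact hBc) hBc.measurableSet fun y hy => ?_
          have e : ∀ x, G 0 (1/2) x y = ∫ t in (0:ℝ)..(1/2), H (y + (1 - t) • (x - y)) := by
            intro x
            refine intervalIntegral.integral_congr fun t _ => ?_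
            congr 1
            module
          simp only [I, e]
          refine (segment_integral_le hH h0 hy (by fun_prop) (by norm_num)
            (fun t ht => ⟨by linarith [ht.2], by linarith [ht.1]⟩)).trans (le_of_eq ?_)
          ring
      _ = _ := by rw [setIntegral_const, smul_eq_mul]
  have h2 : ∫ y in B, I (1/2) 1 y ≤ volume.real B * (4 * ∫ x in B, H x) := by
    have hint : Integrable (Function.uncurry fun y x => G (1/2) 1 x y)
        ((volume.restrict B).prod (volume.restrict B)) := by
      rw [Measure.prod_restrict]
      exact ((hGc _ _).comp continuous_swap).continuousOn.integrableOn_compact (hBc.prod hBc)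
    simp only [I]
    rw [integral_integral_swap hint]
    calc ∫ x in B, ∫ y in B, G (1/2) 1 x y ≤ ∫ x in B, 4 * ∫ x in B, H x := by
          refine setIntegral_mono_on
            ((continuous_parametric_integral_of_continuous (hGc _ _) hBc).continuousOn.integrableOn_compact hBc)
            (continuousOn_const.integrableOn_compact hBc) hBc.measurableSet fun x hx => ?_
          refine (segment_integral_le hH h0 hx continuous_id (by norm_num)
            (fun t ht => ⟨ht.1, ht.2⟩)).trans (le_of_eq ?_)
          ring
      _ = _ := by rw [setIntegral_const, smul_eq_mul]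
  have h3 : ∫ y in B, I 0 1 y = (∫ y in B, I 0 (1/2) y) + ∫ y in B, I (1/2) 1 y := by
    rw [← integral_add ((hIc _ _).continuousOn.integrableOn_compact hBc)
      ((hIc _ _).continuousOn.integrableOn_compact hBc)]
    exact integral_congr_ae (ae_of_all _ hsplit)
  calc (∫ x in B, z x) * volume.real Z ≤ 2 * r * ∫ y in B, I 0 1 y := hA
    _ ≤ 2 * r * (volume.real B * (8 * ∫ x in B, H x)) := by
        gcongr
        linarith
    _ = _ := by ring

end Vale.Agent.P080.DG
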